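import Vale.Agent.P219.Eleven.Data

/-!
# P219: positivity of the chord form of the calibration in dimension eleven

Generated. Coefficient tables are by powers of `t`, then of the second variable.
-/

namespace Vale.Agent.P219.Eleven

open PosCheck

theorem r_nn_box0 {t s : ℝ} (a0 : 0 ≤ t) (a1 : t ≤ 2) (c0 : 0 ≤ s) (c1 : s ≤ 2) :
    0 ≤ ev2 tR t s :=
  ev2_nonneg (k := 10) (T := ⟨0, some (2), 1⟩) (S := ⟨0, some (2), 1⟩) (P := tR) (by decide +kernel)
    (by constructor <;> dsimp only <;> push_cast <;> first | trivial | linarith)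
    (by constructor <;> dsimp only <;> push_cast <;> linarith)

theorem r_nn_box1 {t s : ℝ} (a0 : 2 ≤ t) (c0 : 0 ≤ s) (c1 : s ≤ 2) :
    0 ≤ ev2 tR t s :=
  ev2_nonneg (k := 10) (T := ⟨2, none, 1⟩) (S := ⟨0, some (2), 1⟩) (P := tR) (by decide +kernel)
    (by constructor <;> dsimp only <;> push_cast <;> first | trivial | linarith)
    (by constructor <;> dsimp only <;> push_cast <;> linarith)

theorem r_nn {t s : ℝ} (ht0 : 0 ≤ t) (hs0 : 0 ≤ s) (hs1 : s ≤ 2) :
    0 ≤ ev2 tR t s := by
  rcases le_total t (2) with h0 | h0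
  · exact r_nn_box0 (by linarith) (by linarith) (by linarith) (by linarith)
  · exact r_nn_box1 (by linarith) (by linarith) (by linarith)

theorem g0_nn_box0 {t s : ℝ} (a0 : 0 ≤ t) (a1 : t ≤ 1) (c0 : 0 ≤ s) (c1 : s ≤ 1) :
    0 ≤ ev2 tG0 t s :=
  ev2_nonneg (k := 5) (T := ⟨0, some (1), 1⟩) (S := ⟨0, some (1), 1⟩) (P := tG0) (by decide +kernel)
    (by constructor <;> dsimp only <;> push_cast <;> first | trivial | linarith)
    (by constructor <;> dsimp only <;> push_cast <;> linarith)

theorem g0_nn_box1 {t s : ℝ} (a0 : 1 ≤ t) (a1 : t ≤ 2) (c0 : 0 ≤ s) (c1 : s ≤ 1) :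
    0 ≤ ev2 tG0 t s :=
  ev2_nonneg (k := 5) (T := ⟨1, some (2), 1⟩) (S := ⟨0, some (1), 1⟩) (P := tG0) (by decide +kernel)
    (by constructor <;> dsimp only <;> push_cast <;> first | trivial | linarith)
    (by constructor <;> dsimp only <;> push_cast <;> linarith)

theorem g0_nn_box2 {t s : ℝ} (a0 : 2 ≤ t) (c0 : 0 ≤ s) (c1 : s ≤ 1) :
    0 ≤ ev2 tG0 t s :=
  ev2_nonneg (k := 5) (T := ⟨2, none, 1⟩) (S := ⟨0, some (1), 1⟩) (P := tG0) (by decide +kernel)
    (by constructor <;> dsimp only <;> push_cast <;> first | trivial | linarith)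
    (by constructor <;> dsimp only <;> push_cast <;> linarith)

theorem g0_nn {t s : ℝ} (ht0 : 0 ≤ t) (hs0 : 0 ≤ s) (hs1 : s ≤ 1) :
    0 ≤ ev2 tG0 t s := by
  rcases le_total t (2) with h0 | h0
  · rcases le_total t (1) with h1 | h1
    · exact g0_nn_box0 (by linarith) (by linarith) (by linarith) (by linarith)
    · exact g0_nn_box1 (by linarith) (by linarith) (by linarith) (by linarith)
  · exact g0_nn_box2 (by linarith) (by linarith) (by linarith)

theorem gl1_nn_box0 {t s : ℝ} (a0 : 0 ≤ t) (a1 : t ≤ 1 / 2) (c0 : 1 / 2 ≤ s) (c1 : s ≤ 1) :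
    0 ≤ ev2 tGL1 t s :=
  ev2_nonneg (k := 12) (T := ⟨0, some (1), 2⟩) (S := ⟨1, some (2), 2⟩) (P := tGL1) (by decide +kernel)
    (by constructor <;> dsimp only <;> push_cast <;> first | trivial | linarith)
    (by constructor <;> dsimp only <;> push_cast <;> linarith)

theorem gl1_nn_box1 {t s : ℝ} (a0 : 1 / 2 ≤ t) (a1 : t ≤ 1) (c0 : 0 ≤ s) (c1 : s ≤ 1) :
    0 ≤ ev2 tGL1 t s :=
  ev2_nonneg (k := 12) (T := ⟨1, some (2), 2⟩) (S := ⟨0, some (1), 1⟩) (P := tGL1) (by decide +kernel)
    (by constructor <;> dsimp only <;> push_cast <;> first | trivial | linarith)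
    (by constructor <;> dsimp only <;> push_cast <;> linarith)

theorem gl1_nn_box2 {t s : ℝ} (a0 : 1 ≤ t) (a1 : t ≤ 2) (c0 : 0 ≤ s) (c1 : s ≤ 1) :
    0 ≤ ev2 tGL1 t s :=
  ev2_nonneg (k := 12) (T := ⟨1, some (2), 1⟩) (S := ⟨0, some (1), 1⟩) (P := tGL1) (by decide +kernel)
    (by constructor <;> dsimp only <;> push_cast <;> first | trivial | linarith)
    (by constructor <;> dsimp only <;> push_cast <;> linarith)

theorem gl1_nn_box3 {t s : ℝ} (a0 : 2 ≤ t) (c0 : 0 ≤ s) (c1 : s ≤ 1) :
    0 ≤ ev2 tGL1 t s :=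
  ev2_nonneg (k := 12) (T := ⟨2, none, 1⟩) (S := ⟨0, some (1), 1⟩) (P := tGL1) (by decide +kernel)
    (by constructor <;> dsimp only <;> push_cast <;> first | trivial | linarith)
    (by constructor <;> dsimp only <;> push_cast <;> linarith)

theorem gl1_nn {t s : ℝ} (ht0 : 0 ≤ t) (hs0 : 0 ≤ s) (hs1 : s ≤ 1)
    (hz : ¬(t ≤ 1 / 2 ∧ s ≤ 1 / 2)) :
    0 ≤ ev2 tGL1 t s := by
  rcases le_total t (2) with h0 | h0
  · rcases le_total t (1) with h1 | h1
    · rcases le_total t (1 / 2) with h2 | h2
      · rcases le_total s (1 / 2) with h3 | h3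
        · exact absurd ⟨by linarith, by linarith⟩ hz
        · exact gl1_nn_box0 (by linarith) (by linarith) (by linarith) (by linarith)
      · exact gl1_nn_box1 (by linarith) (by linarith) (by linarith) (by linarith)
    · exact gl1_nn_box2 (by linarith) (by linarith) (by linarith) (by linarith)
  · exact gl1_nn_box3 (by linarith) (by linarith) (by linarith)

theorem ca1_nn_box0 {t s : ℝ} (a0 : 0 ≤ t) (a1 : t ≤ 1 / 2) (c0 : 0 ≤ s) (c1 : s ≤ 1) :
    0 ≤ ev2 tCA1 t s :=
  ev2_nonneg (k := 12) (T := ⟨0, some (1), 2⟩) (S := ⟨0, some (1), 1⟩) (P := tCA1) (by decide +kernel)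
    (by constructor <;> dsimp only <;> push_cast <;> first | trivial | linarith)
    (by constructor <;> dsimp only <;> push_cast <;> linarith)

theorem ca1_nn {t s : ℝ} (ht0 : 0 ≤ t) (ht1 : t ≤ 1 / 2) (hs0 : 0 ≤ s) (hs1 : s ≤ 1) :
    0 ≤ ev2 tCA1 t s := by
  exact ca1_nn_box0 (by linarith) (by linarith) (by linarith) (by linarith)

theorem cb1_nn_box0 {t s : ℝ} (a0 : 0 ≤ t) (a1 : t ≤ 1) (c0 : 0 ≤ s) (c1 : s ≤ 1 / 2) :
    0 ≤ ev2 tCB1 t s :=
  ev2_nonneg (k := 9) (T := ⟨0, some (1), 1⟩) (S := ⟨0, some (1), 2⟩) (P := tCB1) (by decide +kernel)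
    (by constructor <;> dsimp only <;> push_cast <;> first | trivial | linarith)
    (by constructor <;> dsimp only <;> push_cast <;> linarith)

theorem cb1_nn {t s : ℝ} (ht0 : 0 ≤ t) (ht1 : t ≤ 1) (hs0 : 0 ≤ s) (hs1 : s ≤ 1 / 2) :
    0 ≤ ev2 tCB1 t s := by
  exact cb1_nn_box0 (by linarith) (by linarith) (by linarith) (by linarith)

theorem gl2_nn_box0 {t s : ℝ} (a0 : 0 ≤ t) (a1 : t ≤ 1 / 2) (c0 : 1 / 2 ≤ s) (c1 : s ≤ 1) :
    0 ≤ ev2 tGL2 t s :=
  ev2_nonneg (k := 12) (T := ⟨0, some (1), 2⟩) (S := ⟨1, some (2), 2⟩) (P := tGL2) (by decide +kernel)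
    (by constructor <;> dsimp only <;> push_cast <;> first | trivial | linarith)
    (by constructor <;> dsimp only <;> push_cast <;> linarith)

theorem gl2_nn_box1 {t s : ℝ} (a0 : 1 / 2 ≤ t) (a1 : t ≤ 1) (c0 : 0 ≤ s) (c1 : s ≤ 1) :
    0 ≤ ev2 tGL2 t s :=
  ev2_nonneg (k := 12) (T := ⟨1, some (2), 2⟩) (S := ⟨0, some (1), 1⟩) (P := tGL2) (by decide +kernel)
    (by constructor <;> dsimp only <;> push_cast <;> first | trivial | linarith)
    (by constructor <;> dsimp only <;> push_cast <;> linarith)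

theorem gl2_nn_box2 {t s : ℝ} (a0 : 1 ≤ t) (a1 : t ≤ 2) (c0 : 0 ≤ s) (c1 : s ≤ 1) :
    0 ≤ ev2 tGL2 t s :=
  ev2_nonneg (k := 12) (T := ⟨1, some (2), 1⟩) (S := ⟨0, some (1), 1⟩) (P := tGL2) (by decide +kernel)
    (by constructor <;> dsimp only <;> push_cast <;> first | trivial | linarith)
    (by constructor <;> dsimp only <;> push_cast <;> linarith)

theorem gl2_nn_box3 {t s : ℝ} (a0 : 2 ≤ t) (c0 : 0 ≤ s) (c1 : s ≤ 1) :
    0 ≤ ev2 tGL2 t s :=
  ev2_nonneg (k := 12) (T := ⟨2, none, 1⟩) (S := ⟨0, some (1), 1⟩) (P := tGL2) (by decide +kernel)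
    (by constructor <;> dsimp only <;> push_cast <;> first | trivial | linarith)
    (by constructor <;> dsimp only <;> push_cast <;> linarith)

theorem gl2_nn {t s : ℝ} (ht0 : 0 ≤ t) (hs0 : 0 ≤ s) (hs1 : s ≤ 1)
    (hz : ¬(t ≤ 1 / 2 ∧ s ≤ 1 / 2)) :
    0 ≤ ev2 tGL2 t s := by
  rcases le_total t (2) with h0 | h0
  · rcases le_total t (1) with h1 | h1
    · rcases le_total t (1 / 2) with h2 | h2
      · rcases le_total s (1 / 2) with h3 | h3
        · exact absurd ⟨by linarith, by linarith⟩ hz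
        · exact gl2_nn_box0 (by linarith) (by linarith) (by linarith) (by linarith)
      · exact gl2_nn_box1 (by linarith) (by linarith) (by linarith) (by linarith)
    · exact gl2_nn_box2 (by linarith) (by linarith) (by linarith) (by linarith)
  · exact gl2_nn_box3 (by linarith) (by linarith) (by linarith)

theorem ca2_nn_box0 {t s : ℝ} (a0 : 0 ≤ t) (a1 : t ≤ 1 / 2) (c0 : 0 ≤ s) (c1 : s ≤ 1) :
    0 ≤ ev2 tCA2 t s :=
  ev2_nonneg (k := 12) (T := ⟨0, some (1), 2⟩) (S := ⟨0, some (1), 1⟩) (P := tCA2) (by decide +kernel)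
    (by constructor <;> dsimp only <;> push_cast <;> first | trivial | linarith)
    (by constructor <;> dsimp only <;> push_cast <;> linarith)

theorem ca2_nn {t s : ℝ} (ht0 : 0 ≤ t) (ht1 : t ≤ 1 / 2) (hs0 : 0 ≤ s) (hs1 : s ≤ 1) :
    0 ≤ ev2 tCA2 t s := by
  exact ca2_nn_box0 (by linarith) (by linarith) (by linarith) (by linarith)

theorem cb2_nn_box0 {t s : ℝ} (a0 : 0 ≤ t) (a1 : t ≤ 1) (c0 : 0 ≤ s) (c1 : s ≤ 1 / 2) :
    0 ≤ ev2 tCB2 t s :=
  ev2_nonneg (k := 9) (T := ⟨0, some (1), 1⟩) (S := ⟨0, some (1), 2⟩) (P := tCB2) (by decide +kernel)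
    (by constructor <;> dsimp only <;> push_cast <;> first | trivial | linarith)
    (by constructor <;> dsimp only <;> push_cast <;> linarith)

theorem cb2_nn {t s : ℝ} (ht0 : 0 ≤ t) (ht1 : t ≤ 1) (hs0 : 0 ≤ s) (hs1 : s ≤ 1 / 2) :
    0 ≤ ev2 tCB2 t s := by
  exact cb2_nn_box0 (by linarith) (by linarith) (by linarith) (by linarith)

theorem gl3_nn_box0 {t s : ℝ} (a0 : 0 ≤ t) (a1 : t ≤ 1 / 2) (c0 : 1 / 2 ≤ s) (c1 : s ≤ 1) :
    0 ≤ ev2 tGL3 t s :=
  ev2_nonneg (k := 12) (T := ⟨0, some (1), 2⟩) (S := ⟨1, some (2), 2⟩) (P := tGL3) (by decide +kernel)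
    (by constructor <;> dsimp only <;> push_cast <;> first | trivial | linarith)
    (by constructor <;> dsimp only <;> push_cast <;> linarith)

theorem gl3_nn_box1 {t s : ℝ} (a0 : 1 / 2 ≤ t) (a1 : t ≤ 1) (c0 : 0 ≤ s) (c1 : s ≤ 1) :
    0 ≤ ev2 tGL3 t s :=
  ev2_nonneg (k := 12) (T := ⟨1, some (2), 2⟩) (S := ⟨0, some (1), 1⟩) (P := tGL3) (by decide +kernel)
    (by constructor <;> dsimp only <;> push_cast <;> first | trivial | linarith)
    (by constructor <;> dsimp only <;> push_cast <;> linarith)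

theorem gl3_nn_box2 {t s : ℝ} (a0 : 1 ≤ t) (a1 : t ≤ 2) (c0 : 0 ≤ s) (c1 : s ≤ 1) :
    0 ≤ ev2 tGL3 t s :=
  ev2_nonneg (k := 12) (T := ⟨1, some (2), 1⟩) (S := ⟨0, some (1), 1⟩) (P := tGL3) (by decide +kernel)
    (by constructor <;> dsimp only <;> push_cast <;> first | trivial | linarith)
    (by constructor <;> dsimp only <;> push_cast <;> linarith)

theorem gl3_nn_box3 {t s : ℝ} (a0 : 2 ≤ t) (c0 : 0 ≤ s) (c1 : s ≤ 1) :
    0 ≤ ev2 tGL3 t s :=
  ev2_nonneg (k := 12) (T := ⟨2, none, 1⟩) (S := ⟨0, some (1), 1⟩) (P := tGL3) (by decide +kernel)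
    (by constructor <;> dsimp only <;> push_cast <;> first | trivial | linarith)
    (by constructor <;> dsimp only <;> push_cast <;> linarith)

theorem gl3_nn {t s : ℝ} (ht0 : 0 ≤ t) (hs0 : 0 ≤ s) (hs1 : s ≤ 1)
    (hz : ¬(t ≤ 1 / 2 ∧ s ≤ 1 / 2)) :
    0 ≤ ev2 tGL3 t s := by
  rcases le_total t (2) with h0 | h0
  · rcases le_total t (1) with h1 | h1
    · rcases le_total t (1 / 2) with h2 | h2
      · rcases le_total s (1 / 2) with h3 | h3
        · exact absurd ⟨by linarith, by linarith⟩ hz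
        · exact gl3_nn_box0 (by linarith) (by linarith) (by linarith) (by linarith)
      · exact gl3_nn_box1 (by linarith) (by linarith) (by linarith) (by linarith)
    · exact gl3_nn_box2 (by linarith) (by linarith) (by linarith) (by linarith)
  · exact gl3_nn_box3 (by linarith) (by linarith) (by linarith)

theorem ca3_nn_box0 {t s : ℝ} (a0 : 0 ≤ t) (a1 : t ≤ 1 / 2) (c0 : 0 ≤ s) (c1 : s ≤ 1) :
    0 ≤ ev2 tCA3 t s :=
  ev2_nonneg (k := 12) (T := ⟨0, some (1), 2⟩) (S := ⟨0, some (1), 1⟩) (P := tCA3) (by decide +kernel)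
    (by constructor <;> dsimp only <;> push_cast <;> first | trivial | linarith)
    (by constructor <;> dsimp only <;> push_cast <;> linarith)

theorem ca3_nn {t s : ℝ} (ht0 : 0 ≤ t) (ht1 : t ≤ 1 / 2) (hs0 : 0 ≤ s) (hs1 : s ≤ 1) :
    0 ≤ ev2 tCA3 t s := by
  exact ca3_nn_box0 (by linarith) (by linarith) (by linarith) (by linarith)

theorem cb3_nn_box0 {t s : ℝ} (a0 : 0 ≤ t) (a1 : t ≤ 1) (c0 : 0 ≤ s) (c1 : s ≤ 1 / 2) :
    0 ≤ ev2 tCB3 t s :=
  ev2_nonneg (k := 9) (T := ⟨0, some (1), 1⟩) (S := ⟨0, some (1), 2⟩) (P := tCB3) (by decide +kernel)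
    (by constructor <;> dsimp only <;> push_cast <;> first | trivial | linarith)
    (by constructor <;> dsimp only <;> push_cast <;> linarith)

theorem cb3_nn {t s : ℝ} (ht0 : 0 ≤ t) (ht1 : t ≤ 1) (hs0 : 0 ≤ s) (hs1 : s ≤ 1 / 2) :
    0 ≤ ev2 tCB3 t s := by
  exact cb3_nn_box0 (by linarith) (by linarith) (by linarith) (by linarith)

theorem gl4_nn_box0 {t s : ℝ} (a0 : 0 ≤ t) (a1 : t ≤ 1 / 2) (c0 : 1 / 2 ≤ s) (c1 : s ≤ 1) :
    0 ≤ ev2 tGL4 t s :=
  ev2_nonneg (k := 12) (T := ⟨0, some (1), 2⟩) (S := ⟨1, some (2), 2⟩) (P := tGL4) (by decide +kernel)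
    (by constructor <;> dsimp only <;> push_cast <;> first | trivial | linarith)
    (by constructor <;> dsimp only <;> push_cast <;> linarith)

theorem gl4_nn_box1 {t s : ℝ} (a0 : 1 / 2 ≤ t) (a1 : t ≤ 1) (c0 : 0 ≤ s) (c1 : s ≤ 1 / 2) :
    0 ≤ ev2 tGL4 t s :=
  ev2_nonneg (k := 12) (T := ⟨1, some (2), 2⟩) (S := ⟨0, some (1), 2⟩) (P := tGL4) (by decide +kernel)
    (by constructor <;> dsimp only <;> push_cast <;> first | trivial | linarith)
    (by constructor <;> dsimp only <;> push_cast <;> linarith)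

theorem gl4_nn_box2 {t s : ℝ} (a0 : 1 / 2 ≤ t) (a1 : t ≤ 1) (c0 : 1 / 2 ≤ s) (c1 : s ≤ 1) :
    0 ≤ ev2 tGL4 t s :=
  ev2_nonneg (k := 12) (T := ⟨1, some (2), 2⟩) (S := ⟨1, some (2), 2⟩) (P := tGL4) (by decide +kernel)
    (by constructor <;> dsimp only <;> push_cast <;> first | trivial | linarith)
    (by constructor <;> dsimp only <;> push_cast <;> linarith)

theorem gl4_nn_box3 {t s : ℝ} (a0 : 1 ≤ t) (a1 : t ≤ 2) (c0 : 0 ≤ s) (c1 : s ≤ 1) :
    0 ≤ ev2 tGL4 t s :=
  ev2_nonneg (k := 12) (T := ⟨1, some (2), 1⟩) (S := ⟨0, some (1), 1⟩) (P := tGL4) (by decide +kernel)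
    (by constructor <;> dsimp only <;> push_cast <;> first | trivial | linarith)
    (by constructor <;> dsimp only <;> push_cast <;> linarith)

theorem gl4_nn_box4 {t s : ℝ} (a0 : 2 ≤ t) (c0 : 0 ≤ s) (c1 : s ≤ 1) :
    0 ≤ ev2 tGL4 t s :=
  ev2_nonneg (k := 12) (T := ⟨2, none, 1⟩) (S := ⟨0, some (1), 1⟩) (P := tGL4) (by decide +kernel)
    (by constructor <;> dsimp only <;> push_cast <;> first | trivial | linarith)
    (by constructor <;> dsimp only <;> push_cast <;> linarith)

theorem gl4_nn {t s : ℝ} (ht0 : 0 ≤ t) (hs0 : 0 ≤ s) (hs1 : s ≤ 1)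
    (hz : ¬(t ≤ 1 / 2 ∧ s ≤ 1 / 2)) :
    0 ≤ ev2 tGL4 t s := by
  rcases le_total t (2) with h0 | h0
  · rcases le_total t (1) with h1 | h1
    · rcases le_total t (1 / 2) with h2 | h2
      · rcases le_total s (1 / 2) with h3 | h3
        · exact absurd ⟨by linarith, by linarith⟩ hz
        · exact gl4_nn_box0 (by linarith) (by linarith) (by linarith) (by linarith)
      · rcases le_total s (1 / 2) with h3 | h3
        · exact gl4_nn_box1 (by linarith) (by linarith) (by linarith) (by linarith)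
        · exact gl4_nn_box2 (by linarith) (by linarith) (by linarith) (by linarith)
    · exact gl4_nn_box3 (by linarith) (by linarith) (by linarith) (by linarith)
  · exact gl4_nn_box4 (by linarith) (by linarith) (by linarith)

theorem ca4_nn_box0 {t s : ℝ} (a0 : 0 ≤ t) (a1 : t ≤ 1 / 2) (c0 : 0 ≤ s) (c1 : s ≤ 1) :
    0 ≤ ev2 tCA4 t s :=
  ev2_nonneg (k := 12) (T := ⟨0, some (1), 2⟩) (S := ⟨0, some (1), 1⟩) (P := tCA4) (by decide +kernel)
    (by constructor <;> dsimp only <;> push_cast <;> first | trivial | linarith)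
    (by constructor <;> dsimp only <;> push_cast <;> linarith)

theorem ca4_nn {t s : ℝ} (ht0 : 0 ≤ t) (ht1 : t ≤ 1 / 2) (hs0 : 0 ≤ s) (hs1 : s ≤ 1) :
    0 ≤ ev2 tCA4 t s := by
  exact ca4_nn_box0 (by linarith) (by linarith) (by linarith) (by linarith)

theorem cb4_nn_box0 {t s : ℝ} (a0 : 0 ≤ t) (a1 : t ≤ 1) (c0 : 0 ≤ s) (c1 : s ≤ 1 / 2) :
    0 ≤ ev2 tCB4 t s :=
  ev2_nonneg (k := 9) (T := ⟨0, some (1), 1⟩) (S := ⟨0, some (1), 2⟩) (P := tCB4) (by decide +kernel)
    (by constructor <;> dsimp only <;> push_cast <;> first | trivial | linarith)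
    (by constructor <;> dsimp only <;> push_cast <;> linarith)

theorem cb4_nn {t s : ℝ} (ht0 : 0 ≤ t) (ht1 : t ≤ 1) (hs0 : 0 ≤ s) (hs1 : s ≤ 1 / 2) :
    0 ≤ ev2 tCB4 t s := by
  exact cb4_nn_box0 (by linarith) (by linarith) (by linarith) (by linarith)

theorem gh0_nn_box0 {t s : ℝ} (a0 : 0 ≤ t) (a1 : t ≤ 1) (c0 : 1 ≤ s) (c1 : s ≤ 2) :
    0 ≤ ev2 tGH0 t s :=
  ev2_nonneg (k := 11) (T := ⟨0, some (1), 1⟩) (S := ⟨1, some (2), 1⟩) (P := tGH0) (by decide +kernel)
    (by constructor <;> dsimp only <;> push_cast <;> first | trivial | linarith)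
    (by constructor <;> dsimp only <;> push_cast <;> linarith)

theorem gh0_nn_box1 {t s : ℝ} (a0 : 1 ≤ t) (a1 : t ≤ 5 / 4) (c0 : 1 ≤ s) (c1 : s ≤ 3 / 2) :
    0 ≤ ev2 tGH0 t s :=
  ev2_nonneg (k := 11) (T := ⟨4, some (5), 4⟩) (S := ⟨2, some (3), 2⟩) (P := tGH0) (by decide +kernel)
    (by constructor <;> dsimp only <;> push_cast <;> first | trivial | linarith)
    (by constructor <;> dsimp only <;> push_cast <;> linarith)

theorem gh0_nn_box2 {t s : ℝ} (a0 : 5 / 4 ≤ t) (a1 : t ≤ 3 / 2) (c0 : 1 ≤ s) (c1 : s ≤ 3 / 2) :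
    0 ≤ ev2 tGH0 t s :=
  ev2_nonneg (k := 11) (T := ⟨5, some (6), 4⟩) (S := ⟨2, some (3), 2⟩) (P := tGH0) (by decide +kernel)
    (by constructor <;> dsimp only <;> push_cast <;> first | trivial | linarith)
    (by constructor <;> dsimp only <;> push_cast <;> linarith)

theorem gh0_nn_box3 {t s : ℝ} (a0 : 1 ≤ t) (a1 : t ≤ 5 / 4) (c0 : 3 / 2 ≤ s) (c1 : s ≤ 2) :
    0 ≤ ev2 tGH0 t s :=
  ev2_nonneg (k := 11) (T := ⟨4, some (5), 4⟩) (S := ⟨3, some (4), 2⟩) (P := tGH0) (by decide +kernel)
    (by constructor <;> dsimp only <;> push_cast <;> first | trivial | linarith)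
    (by constructor <;> dsimp only <;> push_cast <;> linarith)

theorem gh0_nn_box4 {t s : ℝ} (a0 : 5 / 4 ≤ t) (a1 : t ≤ 3 / 2) (c0 : 3 / 2 ≤ s) (c1 : s ≤ 7 / 4) :
    0 ≤ ev2 tGH0 t s :=
  ev2_nonneg (k := 11) (T := ⟨5, some (6), 4⟩) (S := ⟨6, some (7), 4⟩) (P := tGH0) (by decide +kernel)
    (by constructor <;> dsimp only <;> push_cast <;> first | trivial | linarith)
    (by constructor <;> dsimp only <;> push_cast <;> linarith)

theorem gh0_nn_box5 {t s : ℝ} (a0 : 5 / 4 ≤ t) (a1 : t ≤ 3 / 2) (c0 : 7 / 4 ≤ s) (c1 : s ≤ 2) :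
    0 ≤ ev2 tGH0 t s :=
  ev2_nonneg (k := 11) (T := ⟨5, some (6), 4⟩) (S := ⟨7, some (8), 4⟩) (P := tGH0) (by decide +kernel)
    (by constructor <;> dsimp only <;> push_cast <;> first | trivial | linarith)
    (by constructor <;> dsimp only <;> push_cast <;> linarith)

theorem gh0_nn_box6 {t s : ℝ} (a0 : 3 / 2 ≤ t) (a1 : t ≤ 2) (c0 : 1 ≤ s) (c1 : s ≤ 3 / 2) :
    0 ≤ ev2 tGH0 t s :=
  ev2_nonneg (k := 11) (T := ⟨3, some (4), 2⟩) (S := ⟨2, some (3), 2⟩) (P := tGH0) (by decide +kernel)
    (by constructor <;> dsimp only <;> push_cast <;> first | trivial | linarith)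
    (by constructor <;> dsimp only <;> push_cast <;> linarith)

theorem gh0_nn_box7 {t s : ℝ} (a0 : 3 / 2 ≤ t) (a1 : t ≤ 13 / 8) (c0 : 3 / 2 ≤ s) (c1 : s ≤ 7 / 4) :
    0 ≤ ev2 tGH0 t s :=
  ev2_nonneg (k := 11) (T := ⟨12, some (13), 8⟩) (S := ⟨6, some (7), 4⟩) (P := tGH0) (by decide +kernel)
    (by constructor <;> dsimp only <;> push_cast <;> first | trivial | linarith)
    (by constructor <;> dsimp only <;> push_cast <;> linarith)

theorem gh0_nn_box8 {t s : ℝ} (a0 : 13 / 8 ≤ t) (a1 : t ≤ 7 / 4) (c0 : 3 / 2 ≤ s) (c1 : s ≤ 7 / 4) :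
    0 ≤ ev2 tGH0 t s :=
  ev2_nonneg (k := 11) (T := ⟨13, some (14), 8⟩) (S := ⟨6, some (7), 4⟩) (P := tGH0) (by decide +kernel)
    (by constructor <;> dsimp only <;> push_cast <;> first | trivial | linarith)
    (by constructor <;> dsimp only <;> push_cast <;> linarith)

theorem gh0_nn_box9 {t s : ℝ} (a0 : 3 / 2 ≤ t) (a1 : t ≤ 7 / 4) (c0 : 7 / 4 ≤ s) (c1 : s ≤ 2) :
    0 ≤ ev2 tGH0 t s :=
  ev2_nonneg (k := 11) (T := ⟨6, some (7), 4⟩) (S := ⟨7, some (8), 4⟩) (P := tGH0) (by decide +kernel)
    (by constructor <;> dsimp only <;> push_cast <;> first | trivial | linarith)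
    (by constructor <;> dsimp only <;> push_cast <;> linarith)

theorem gh0_nn_box10 {t s : ℝ} (a0 : 7 / 4 ≤ t) (a1 : t ≤ 2) (c0 : 3 / 2 ≤ s) (c1 : s ≤ 7 / 4) :
    0 ≤ ev2 tGH0 t s :=
  ev2_nonneg (k := 11) (T := ⟨7, some (8), 4⟩) (S := ⟨6, some (7), 4⟩) (P := tGH0) (by decide +kernel)
    (by constructor <;> dsimp only <;> push_cast <;> first | trivial | linarith)
    (by constructor <;> dsimp only <;> push_cast <;> linarith)

theorem gh0_nn_box11 {t s : ℝ} (a0 : 7 / 4 ≤ t) (a1 : t ≤ 29 / 16) (c0 : 7 / 4 ≤ s) (c1 : s ≤ 15 / 8) :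
    0 ≤ ev2 tGH0 t s :=
  ev2_nonneg (k := 11) (T := ⟨28, some (29), 16⟩) (S := ⟨14, some (15), 8⟩) (P := tGH0) (by decide +kernel)
    (by constructor <;> dsimp only <;> push_cast <;> first | trivial | linarith)
    (by constructor <;> dsimp only <;> push_cast <;> linarith)

theorem gh0_nn_box12 {t s : ℝ} (a0 : 29 / 16 ≤ t) (a1 : t ≤ 15 / 8) (c0 : 7 / 4 ≤ s) (c1 : s ≤ 15 / 8) :
    0 ≤ ev2 tGH0 t s :=
  ev2_nonneg (k := 11) (T := ⟨29, some (30), 16⟩) (S := ⟨14, some (15), 8⟩) (P := tGH0) (by decide +kernel)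
    (by constructor <;> dsimp only <;> push_cast <;> first | trivial | linarith)
    (by constructor <;> dsimp only <;> push_cast <;> linarith)

theorem gh0_nn_box13 {t s : ℝ} (a0 : 7 / 4 ≤ t) (a1 : t ≤ 15 / 8) (c0 : 15 / 8 ≤ s) (c1 : s ≤ 2) :
    0 ≤ ev2 tGH0 t s :=
  ev2_nonneg (k := 11) (T := ⟨14, some (15), 8⟩) (S := ⟨15, some (16), 8⟩) (P := tGH0) (by decide +kernel)
    (by constructor <;> dsimp only <;> push_cast <;> first | trivial | linarith)
    (by constructor <;> dsimp only <;> push_cast <;> linarith)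

theorem gh0_nn_box14 {t s : ℝ} (a0 : 15 / 8 ≤ t) (a1 : t ≤ 2) (c0 : 7 / 4 ≤ s) (c1 : s ≤ 15 / 8) :
    0 ≤ ev2 tGH0 t s :=
  ev2_nonneg (k := 11) (T := ⟨15, some (16), 8⟩) (S := ⟨14, some (15), 8⟩) (P := tGH0) (by decide +kernel)
    (by constructor <;> dsimp only <;> push_cast <;> first | trivial | linarith)
    (by constructor <;> dsimp only <;> push_cast <;> linarith)

theorem gh0_nn_box15 {t s : ℝ} (a0 : 15 / 8 ≤ t) (a1 : t ≤ 31 / 16) (c0 : 15 / 8 ≤ s) (c1 : s ≤ 31 / 16) :
    0 ≤ ev2 tGH0 t s :=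
  ev2_nonneg (k := 11) (T := ⟨30, some (31), 16⟩) (S := ⟨30, some (31), 16⟩) (P := tGH0) (by decide +kernel)
    (by constructor <;> dsimp only <;> push_cast <;> first | trivial | linarith)
    (by constructor <;> dsimp only <;> push_cast <;> linarith)

theorem gh0_nn_box16 {t s : ℝ} (a0 : 15 / 8 ≤ t) (a1 : t ≤ 31 / 16) (c0 : 31 / 16 ≤ s) (c1 : s ≤ 2) :
    0 ≤ ev2 tGH0 t s :=
  ev2_nonneg (k := 11) (T := ⟨30, some (31), 16⟩) (S := ⟨31, some (32), 16⟩) (P := tGH0) (by decide +kernel)
    (by constructor <;> dsimp only <;> push_cast <;> first | trivial | linarith)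
    (by constructor <;> dsimp only <;> push_cast <;> linarith)

theorem gh0_nn_box17 {t s : ℝ} (a0 : 31 / 16 ≤ t) (a1 : t ≤ 2) (c0 : 15 / 8 ≤ s) (c1 : s ≤ 31 / 16) :
    0 ≤ ev2 tGH0 t s :=
  ev2_nonneg (k := 11) (T := ⟨31, some (32), 16⟩) (S := ⟨30, some (31), 16⟩) (P := tGH0) (by decide +kernel)
    (by constructor <;> dsimp only <;> push_cast <;> first | trivial | linarith)
    (by constructor <;> dsimp only <;> push_cast <;> linarith)

theorem gh0_nn_box18 {t s : ℝ} (a0 : 31 / 16 ≤ t) (a1 : t ≤ 63 / 32) (c0 : 31 / 16 ≤ s) (c1 : s ≤ 63 / 32) :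
    0 ≤ ev2 tGH0 t s :=
  ev2_nonneg (k := 11) (T := ⟨62, some (63), 32⟩) (S := ⟨62, some (63), 32⟩) (P := tGH0) (by decide +kernel)
    (by constructor <;> dsimp only <;> push_cast <;> first | trivial | linarith)
    (by constructor <;> dsimp only <;> push_cast <;> linarith)

theorem gh0_nn_box19 {t s : ℝ} (a0 : 31 / 16 ≤ t) (a1 : t ≤ 63 / 32) (c0 : 63 / 32 ≤ s) (c1 : s ≤ 2) :
    0 ≤ ev2 tGH0 t s :=
  ev2_nonneg (k := 11) (T := ⟨62, some (63), 32⟩) (S := ⟨63, some (64), 32⟩) (P := tGH0) (by decide +kernel)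
    (by constructor <;> dsimp only <;> push_cast <;> first | trivial | linarith)
    (by constructor <;> dsimp only <;> push_cast <;> linarith)

theorem gh0_nn_box20 {t s : ℝ} (a0 : 63 / 32 ≤ t) (a1 : t ≤ 2) (c0 : 31 / 16 ≤ s) (c1 : s ≤ 63 / 32) :
    0 ≤ ev2 tGH0 t s :=
  ev2_nonneg (k := 11) (T := ⟨63, some (64), 32⟩) (S := ⟨62, some (63), 32⟩) (P := tGH0) (by decide +kernel)
    (by constructor <;> dsimp only <;> push_cast <;> first | trivial | linarith)
    (by constructor <;> dsimp only <;> push_cast <;> linarith)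

theorem gh0_nn_box21 {t s : ℝ} (a0 : 2 ≤ t) (c0 : 1 ≤ s) (c1 : s ≤ 2) :
    0 ≤ ev2 tGH0 t s :=
  ev2_nonneg (k := 11) (T := ⟨2, none, 1⟩) (S := ⟨1, some (2), 1⟩) (P := tGH0) (by decide +kernel)
    (by constructor <;> dsimp only <;> push_cast <;> first | trivial | linarith)
    (by constructor <;> dsimp only <;> push_cast <;> linarith)

theorem gh0_nn {t s : ℝ} (ht0 : 0 ≤ t) (hs0 : 1 ≤ s) (hs1 : s ≤ 2)
    (hz : ¬((63 / 32 ≤ t ∧ t ≤ 65 / 32) ∧ 63 / 32 ≤ s)) :
    0 ≤ ev2 tGH0 t s := by
  rcases le_total t (2) with h0 | h0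
  · rcases le_total t (1) with h1 | h1
    · exact gh0_nn_box0 (by linarith) (by linarith) (by linarith) (by linarith)
    · rcases le_total t (3 / 2) with h2 | h2
      · rcases le_total s (3 / 2) with h3 | h3
        · rcases le_total t (5 / 4) with h4 | h4
          · exact gh0_nn_box1 (by linarith) (by linarith) (by linarith) (by linarith)
          · exact gh0_nn_box2 (by linarith) (by linarith) (by linarith) (by linarith)
        · rcases le_total t (5 / 4) with h4 | h4
          · exact gh0_nn_box3 (by linarith) (by linarith) (by linarith) (by linarith)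
          · rcases le_total s (7 / 4) with h5 | h5
            · exact gh0_nn_box4 (by linarith) (by linarith) (by linarith) (by linarith)
            · exact gh0_nn_box5 (by linarith) (by linarith) (by linarith) (by linarith)
      · rcases le_total s (3 / 2) with h3 | h3
        · exact gh0_nn_box6 (by linarith) (by linarith) (by linarith) (by linarith)
        · rcases le_total t (7 / 4) with h4 | h4
          · rcases le_total s (7 / 4) with h5 | h5
            · rcases le_total t (13 / 8) with h6 | h6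
              · exact gh0_nn_box7 (by linarith) (by linarith) (by linarith) (by linarith)
              · exact gh0_nn_box8 (by linarith) (by linarith) (by linarith) (by linarith)
            · exact gh0_nn_box9 (by linarith) (by linarith) (by linarith) (by linarith)
          · rcases le_total s (7 / 4) with h5 | h5
            · exact gh0_nn_box10 (by linarith) (by linarith) (by linarith) (by linarith)
            · rcases le_total t (15 / 8) with h6 | h6
              · rcases le_total s (15 / 8) with h7 | h7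
                · rcases le_total t (29 / 16) with h8 | h8
                  · exact gh0_nn_box11 (by linarith) (by linarith) (by linarith) (by linarith)
                  · exact gh0_nn_box12 (by linarith) (by linarith) (by linarith) (by linarith)
                · exact gh0_nn_box13 (by linarith) (by linarith) (by linarith) (by linarith)
              · rcases le_total s (15 / 8) with h7 | h7
                · exact gh0_nn_box14 (by linarith) (by linarith) (by linarith) (by linarith)
                · rcases le_total t (31 / 16) with h8 | h8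
                  · rcases le_total s (31 / 16) with h9 | h9
                    · exact gh0_nn_box15 (by linarith) (by linarith) (by linarith) (by linarith)
                    · exact gh0_nn_box16 (by linarith) (by linarith) (by linarith) (by linarith)
                  · rcases le_total s (31 / 16) with h9 | h9
                    · exact gh0_nn_box17 (by linarith) (by linarith) (by linarith) (by linarith)
                    · rcases le_total t (63 / 32) with h10 | h10
                      · rcases le_total s (63 / 32) with h11 | h11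
                        · exact gh0_nn_box18 (by linarith) (by linarith) (by linarith) (by linarith)
                        · exact gh0_nn_box19 (by linarith) (by linarith) (by linarith) (by linarith)
                      · rcases le_total s (63 / 32) with h11 | h11
                        · exact gh0_nn_box20 (by linarith) (by linarith) (by linarith) (by linarith)
                        · exact absurd ⟨⟨by linarith, by linarith⟩, by linarith⟩ hz
  · exact gh0_nn_box21 (by linarith) (by linarith) (by linarith)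

theorem d0_nn {t s : ℝ} (ht0 : 63 / 32 ≤ t) (ht1 : t ≤ 65 / 32) (hs0 : 63 / 32 ≤ s) (hs1 : s ≤ 2) :
    0 ≤ ev2 tD0 t s := by
  exact ev2_nonneg (k := 10) (T := ⟨63, some (65), 32⟩) (S := ⟨63, some (64), 32⟩) (P := tD0) (by decide +kernel)
    (by constructor <;> dsimp only <;> push_cast <;> linarith)
    (by constructor <;> dsimp only <;> push_cast <;> linarith)

theorem gh1_nn_box0 {t s : ℝ} (a0 : 0 ≤ t) (a1 : t ≤ 1) (c0 : 1 ≤ s) (c1 : s ≤ 2) :
    0 ≤ ev2 tGH1 t s :=
  ev2_nonneg (k := 12) (T := ⟨0, some (1), 1⟩) (S := ⟨1, some (2), 1⟩) (P := tGH1) (by decide +kernel)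
    (by constructor <;> dsimp only <;> push_cast <;> first | trivial | linarith)
    (by constructor <;> dsimp only <;> push_cast <;> linarith)

theorem gh1_nn_box1 {t s : ℝ} (a0 : 1 ≤ t) (a1 : t ≤ 3 / 2) (c0 : 1 ≤ s) (c1 : s ≤ 3 / 2) :
    0 ≤ ev2 tGH1 t s :=
  ev2_nonneg (k := 12) (T := ⟨2, some (3), 2⟩) (S := ⟨2, some (3), 2⟩) (P := tGH1) (by decide +kernel)
    (by constructor <;> dsimp only <;> push_cast <;> first | trivial | linarith)
    (by constructor <;> dsimp only <;> push_cast <;> linarith)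

theorem gh1_nn_box2 {t s : ℝ} (a0 : 1 ≤ t) (a1 : t ≤ 5 / 4) (c0 : 3 / 2 ≤ s) (c1 : s ≤ 2) :
    0 ≤ ev2 tGH1 t s :=
  ev2_nonneg (k := 12) (T := ⟨4, some (5), 4⟩) (S := ⟨3, some (4), 2⟩) (P := tGH1) (by decide +kernel)
    (by constructor <;> dsimp only <;> push_cast <;> first | trivial | linarith)
    (by constructor <;> dsimp only <;> push_cast <;> linarith)

theorem gh1_nn_box3 {t s : ℝ} (a0 : 5 / 4 ≤ t) (a1 : t ≤ 3 / 2) (c0 : 3 / 2 ≤ s) (c1 : s ≤ 7 / 4) :
    0 ≤ ev2 tGH1 t s :=
  ev2_nonneg (k := 12) (T := ⟨5, some (6), 4⟩) (S := ⟨6, some (7), 4⟩) (P := tGH1) (by decide +kernel)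
    (by constructor <;> dsimp only <;> push_cast <;> first | trivial | linarith)
    (by constructor <;> dsimp only <;> push_cast <;> linarith)

theorem gh1_nn_box4 {t s : ℝ} (a0 : 5 / 4 ≤ t) (a1 : t ≤ 3 / 2) (c0 : 7 / 4 ≤ s) (c1 : s ≤ 2) :
    0 ≤ ev2 tGH1 t s :=
  ev2_nonneg (k := 12) (T := ⟨5, some (6), 4⟩) (S := ⟨7, some (8), 4⟩) (P := tGH1) (by decide +kernel)
    (by constructor <;> dsimp only <;> push_cast <;> first | trivial | linarith)
    (by constructor <;> dsimp only <;> push_cast <;> linarith)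

theorem gh1_nn_box5 {t s : ℝ} (a0 : 3 / 2 ≤ t) (a1 : t ≤ 2) (c0 : 1 ≤ s) (c1 : s ≤ 3 / 2) :
    0 ≤ ev2 tGH1 t s :=
  ev2_nonneg (k := 12) (T := ⟨3, some (4), 2⟩) (S := ⟨2, some (3), 2⟩) (P := tGH1) (by decide +kernel)
    (by constructor <;> dsimp only <;> push_cast <;> first | trivial | linarith)
    (by constructor <;> dsimp only <;> push_cast <;> linarith)

theorem gh1_nn_box6 {t s : ℝ} (a0 : 3 / 2 ≤ t) (a1 : t ≤ 13 / 8) (c0 : 3 / 2 ≤ s) (c1 : s ≤ 7 / 4) :
    0 ≤ ev2 tGH1 t s :=
  ev2_nonneg (k := 12) (T := ⟨12, some (13), 8⟩) (S := ⟨6, some (7), 4⟩) (P := tGH1) (by decide +kernel)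
    (by constructor <;> dsimp only <;> push_cast <;> first | trivial | linarith)
    (by constructor <;> dsimp only <;> push_cast <;> linarith)

theorem gh1_nn_box7 {t s : ℝ} (a0 : 13 / 8 ≤ t) (a1 : t ≤ 7 / 4) (c0 : 3 / 2 ≤ s) (c1 : s ≤ 7 / 4) :
    0 ≤ ev2 tGH1 t s :=
  ev2_nonneg (k := 12) (T := ⟨13, some (14), 8⟩) (S := ⟨6, some (7), 4⟩) (P := tGH1) (by decide +kernel)
    (by constructor <;> dsimp only <;> push_cast <;> first | trivial | linarith)
    (by constructor <;> dsimp only <;> push_cast <;> linarith)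

theorem gh1_nn_box8 {t s : ℝ} (a0 : 3 / 2 ≤ t) (a1 : t ≤ 7 / 4) (c0 : 7 / 4 ≤ s) (c1 : s ≤ 2) :
    0 ≤ ev2 tGH1 t s :=
  ev2_nonneg (k := 12) (T := ⟨6, some (7), 4⟩) (S := ⟨7, some (8), 4⟩) (P := tGH1) (by decide +kernel)
    (by constructor <;> dsimp only <;> push_cast <;> first | trivial | linarith)
    (by constructor <;> dsimp only <;> push_cast <;> linarith)

theorem gh1_nn_box9 {t s : ℝ} (a0 : 7 / 4 ≤ t) (a1 : t ≤ 2) (c0 : 3 / 2 ≤ s) (c1 : s ≤ 7 / 4) :
    0 ≤ ev2 tGH1 t s :=
  ev2_nonneg (k := 12) (T := ⟨7, some (8), 4⟩) (S := ⟨6, some (7), 4⟩) (P := tGH1) (by decide +kernel)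
    (by constructor <;> dsimp only <;> push_cast <;> first | trivial | linarith)
    (by constructor <;> dsimp only <;> push_cast <;> linarith)

theorem gh1_nn_box10 {t s : ℝ} (a0 : 7 / 4 ≤ t) (a1 : t ≤ 29 / 16) (c0 : 7 / 4 ≤ s) (c1 : s ≤ 15 / 8) :
    0 ≤ ev2 tGH1 t s :=
  ev2_nonneg (k := 12) (T := ⟨28, some (29), 16⟩) (S := ⟨14, some (15), 8⟩) (P := tGH1) (by decide +kernel)
    (by constructor <;> dsimp only <;> push_cast <;> first | trivial | linarith)
    (by constructor <;> dsimp only <;> push_cast <;> linarith)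

theorem gh1_nn_box11 {t s : ℝ} (a0 : 29 / 16 ≤ t) (a1 : t ≤ 15 / 8) (c0 : 7 / 4 ≤ s) (c1 : s ≤ 15 / 8) :
    0 ≤ ev2 tGH1 t s :=
  ev2_nonneg (k := 12) (T := ⟨29, some (30), 16⟩) (S := ⟨14, some (15), 8⟩) (P := tGH1) (by decide +kernel)
    (by constructor <;> dsimp only <;> push_cast <;> first | trivial | linarith)
    (by constructor <;> dsimp only <;> push_cast <;> linarith)

theorem gh1_nn_box12 {t s : ℝ} (a0 : 7 / 4 ≤ t) (a1 : t ≤ 15 / 8) (c0 : 15 / 8 ≤ s) (c1 : s ≤ 2) :
    0 ≤ ev2 tGH1 t s :=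
  ev2_nonneg (k := 12) (T := ⟨14, some (15), 8⟩) (S := ⟨15, some (16), 8⟩) (P := tGH1) (by decide +kernel)
    (by constructor <;> dsimp only <;> push_cast <;> first | trivial | linarith)
    (by constructor <;> dsimp only <;> push_cast <;> linarith)

theorem gh1_nn_box13 {t s : ℝ} (a0 : 15 / 8 ≤ t) (a1 : t ≤ 2) (c0 : 7 / 4 ≤ s) (c1 : s ≤ 15 / 8) :
    0 ≤ ev2 tGH1 t s :=
  ev2_nonneg (k := 12) (T := ⟨15, some (16), 8⟩) (S := ⟨14, some (15), 8⟩) (P := tGH1) (by decide +kernel)
    (by constructor <;> dsimp only <;> push_cast <;> first | trivial | linarith)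
    (by constructor <;> dsimp only <;> push_cast <;> linarith)

theorem gh1_nn_box14 {t s : ℝ} (a0 : 15 / 8 ≤ t) (a1 : t ≤ 61 / 32) (c0 : 15 / 8 ≤ s) (c1 : s ≤ 31 / 16) :
    0 ≤ ev2 tGH1 t s :=
  ev2_nonneg (k := 12) (T := ⟨60, some (61), 32⟩) (S := ⟨30, some (31), 16⟩) (P := tGH1) (by decide +kernel)
    (by constructor <;> dsimp only <;> push_cast <;> first | trivial | linarith)
    (by constructor <;> dsimp only <;> push_cast <;> linarith)

theorem gh1_nn_box15 {t s : ℝ} (a0 : 61 / 32 ≤ t) (a1 : t ≤ 31 / 16) (c0 : 15 / 8 ≤ s) (c1 : s ≤ 31 / 16) :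
    0 ≤ ev2 tGH1 t s :=
  ev2_nonneg (k := 12) (T := ⟨61, some (62), 32⟩) (S := ⟨30, some (31), 16⟩) (P := tGH1) (by decide +kernel)
    (by constructor <;> dsimp only <;> push_cast <;> first | trivial | linarith)
    (by constructor <;> dsimp only <;> push_cast <;> linarith)

theorem gh1_nn_box16 {t s : ℝ} (a0 : 15 / 8 ≤ t) (a1 : t ≤ 31 / 16) (c0 : 31 / 16 ≤ s) (c1 : s ≤ 2) :
    0 ≤ ev2 tGH1 t s :=
  ev2_nonneg (k := 12) (T := ⟨30, some (31), 16⟩) (S := ⟨31, some (32), 16⟩) (P := tGH1) (by decide +kernel)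
    (by constructor <;> dsimp only <;> push_cast <;> first | trivial | linarith)
    (by constructor <;> dsimp only <;> push_cast <;> linarith)

theorem gh1_nn_box17 {t s : ℝ} (a0 : 31 / 16 ≤ t) (a1 : t ≤ 2) (c0 : 15 / 8 ≤ s) (c1 : s ≤ 31 / 16) :
    0 ≤ ev2 tGH1 t s :=
  ev2_nonneg (k := 12) (T := ⟨31, some (32), 16⟩) (S := ⟨30, some (31), 16⟩) (P := tGH1) (by decide +kernel)
    (by constructor <;> dsimp only <;> push_cast <;> first | trivial | linarith)
    (by constructor <;> dsimp only <;> push_cast <;> linarith)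

theorem gh1_nn_box18 {t s : ℝ} (a0 : 31 / 16 ≤ t) (a1 : t ≤ 125 / 64) (c0 : 31 / 16 ≤ s) (c1 : s ≤ 63 / 32) :
    0 ≤ ev2 tGH1 t s :=
  ev2_nonneg (k := 12) (T := ⟨124, some (125), 64⟩) (S := ⟨62, some (63), 32⟩) (P := tGH1) (by decide +kernel)
    (by constructor <;> dsimp only <;> push_cast <;> first | trivial | linarith)
    (by constructor <;> dsimp only <;> push_cast <;> linarith)

theorem gh1_nn_box19 {t s : ℝ} (a0 : 125 / 64 ≤ t) (a1 : t ≤ 63 / 32) (c0 : 31 / 16 ≤ s) (c1 : s ≤ 63 / 32) :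
    0 ≤ ev2 tGH1 t s :=
  ev2_nonneg (k := 12) (T := ⟨125, some (126), 64⟩) (S := ⟨62, some (63), 32⟩) (P := tGH1) (by decide +kernel)
    (by constructor <;> dsimp only <;> push_cast <;> first | trivial | linarith)
    (by constructor <;> dsimp only <;> push_cast <;> linarith)

theorem gh1_nn_box20 {t s : ℝ} (a0 : 31 / 16 ≤ t) (a1 : t ≤ 63 / 32) (c0 : 63 / 32 ≤ s) (c1 : s ≤ 2) :
    0 ≤ ev2 tGH1 t s :=
  ev2_nonneg (k := 12) (T := ⟨62, some (63), 32⟩) (S := ⟨63, some (64), 32⟩) (P := tGH1) (by decide +kernel)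
    (by constructor <;> dsimp only <;> push_cast <;> first | trivial | linarith)
    (by constructor <;> dsimp only <;> push_cast <;> linarith)

theorem gh1_nn_box21 {t s : ℝ} (a0 : 63 / 32 ≤ t) (a1 : t ≤ 2) (c0 : 31 / 16 ≤ s) (c1 : s ≤ 63 / 32) :
    0 ≤ ev2 tGH1 t s :=
  ev2_nonneg (k := 12) (T := ⟨63, some (64), 32⟩) (S := ⟨62, some (63), 32⟩) (P := tGH1) (by decide +kernel)
    (by constructor <;> dsimp only <;> push_cast <;> first | trivial | linarith)
    (by constructor <;> dsimp only <;> push_cast <;> linarith)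

theorem gh1_nn_box22 {t s : ℝ} (a0 : 2 ≤ t) (c0 : 1 ≤ s) (c1 : s ≤ 2) :
    0 ≤ ev2 tGH1 t s :=
  ev2_nonneg (k := 12) (T := ⟨2, none, 1⟩) (S := ⟨1, some (2), 1⟩) (P := tGH1) (by decide +kernel)
    (by constructor <;> dsimp only <;> push_cast <;> first | trivial | linarith)
    (by constructor <;> dsimp only <;> push_cast <;> linarith)

theorem gh1_nn {t s : ℝ} (ht0 : 0 ≤ t) (hs0 : 1 ≤ s) (hs1 : s ≤ 2)
    (hz : ¬((63 / 32 ≤ t ∧ t ≤ 65 / 32) ∧ 63 / 32 ≤ s)) :
    0 ≤ ev2 tGH1 t s := by
  rcases le_total t (2) with h0 | h0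
  · rcases le_total t (1) with h1 | h1
    · exact gh1_nn_box0 (by linarith) (by linarith) (by linarith) (by linarith)
    · rcases le_total t (3 / 2) with h2 | h2
      · rcases le_total s (3 / 2) with h3 | h3
        · exact gh1_nn_box1 (by linarith) (by linarith) (by linarith) (by linarith)
        · rcases le_total t (5 / 4) with h4 | h4
          · exact gh1_nn_box2 (by linarith) (by linarith) (by linarith) (by linarith)
          · rcases le_total s (7 / 4) with h5 | h5
            · exact gh1_nn_box3 (by linarith) (by linarith) (by linarith) (by linarith)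
            · exact gh1_nn_box4 (by linarith) (by linarith) (by linarith) (by linarith)
      · rcases le_total s (3 / 2) with h3 | h3
        · exact gh1_nn_box5 (by linarith) (by linarith) (by linarith) (by linarith)
        · rcases le_total t (7 / 4) with h4 | h4
          · rcases le_total s (7 / 4) with h5 | h5
            · rcases le_total t (13 / 8) with h6 | h6
              · exact gh1_nn_box6 (by linarith) (by linarith) (by linarith) (by linarith)
              · exact gh1_nn_box7 (by linarith) (by linarith) (by linarith) (by linarith)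
            · exact gh1_nn_box8 (by linarith) (by linarith) (by linarith) (by linarith)
          · rcases le_total s (7 / 4) with h5 | h5
            · exact gh1_nn_box9 (by linarith) (by linarith) (by linarith) (by linarith)
            · rcases le_total t (15 / 8) with h6 | h6
              · rcases le_total s (15 / 8) with h7 | h7
                · rcases le_total t (29 / 16) with h8 | h8
                  · exact gh1_nn_box10 (by linarith) (by linarith) (by linarith) (by linarith)
                  · exact gh1_nn_box11 (by linarith) (by linarith) (by linarith) (by linarith)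
                · exact gh1_nn_box12 (by linarith) (by linarith) (by linarith) (by linarith)
              · rcases le_total s (15 / 8) with h7 | h7
                · exact gh1_nn_box13 (by linarith) (by linarith) (by linarith) (by linarith)
                · rcases le_total t (31 / 16) with h8 | h8
                  · rcases le_total s (31 / 16) with h9 | h9
                    · rcases le_total t (61 / 32) with h10 | h10
                      · exact gh1_nn_box14 (by linarith) (by linarith) (by linarith) (by linarith)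
                      · exact gh1_nn_box15 (by linarith) (by linarith) (by linarith) (by linarith)
                    · exact gh1_nn_box16 (by linarith) (by linarith) (by linarith) (by linarith)
                  · rcases le_total s (31 / 16) with h9 | h9
                    · exact gh1_nn_box17 (by linarith) (by linarith) (by linarith) (by linarith)
                    · rcases le_total t (63 / 32) with h10 | h10
                      · rcases le_total s (63 / 32) with h11 | h11
                        · rcases le_total t (125 / 64) with h12 | h12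
                          · exact gh1_nn_box18 (by linarith) (by linarith) (by linarith) (by linarith)
                          · exact gh1_nn_box19 (by linarith) (by linarith) (by linarith) (by linarith)
                        · exact gh1_nn_box20 (by linarith) (by linarith) (by linarith) (by linarith)
                      · rcases le_total s (63 / 32) with h11 | h11
                        · exact gh1_nn_box21 (by linarith) (by linarith) (by linarith) (by linarith)
                        · exact absurd ⟨⟨by linarith, by linarith⟩, by linarith⟩ hz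
  · exact gh1_nn_box22 (by linarith) (by linarith) (by linarith)

theorem d1_nn {t s : ℝ} (ht0 : 63 / 32 ≤ t) (ht1 : t ≤ 65 / 32) (hs0 : 63 / 32 ≤ s) (hs1 : s ≤ 2) :
    0 ≤ ev2 tD1 t s := by
  exact ev2_nonneg (k := 10) (T := ⟨63, some (65), 32⟩) (S := ⟨63, some (64), 32⟩) (P := tD1) (by decide +kernel)
    (by constructor <;> dsimp only <;> push_cast <;> linarith)
    (by constructor <;> dsimp only <;> push_cast <;> linarith)

theorem gh2_nn_box0 {t s : ℝ} (a0 : 0 ≤ t) (a1 : t ≤ 1) (c0 : 1 ≤ s) (c1 : s ≤ 2) :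
    0 ≤ ev2 tGH2 t s :=
  ev2_nonneg (k := 12) (T := ⟨0, some (1), 1⟩) (S := ⟨1, some (2), 1⟩) (P := tGH2) (by decide +kernel)
    (by constructor <;> dsimp only <;> push_cast <;> first | trivial | linarith)
    (by constructor <;> dsimp only <;> push_cast <;> linarith)

theorem gh2_nn_box1 {t s : ℝ} (a0 : 1 ≤ t) (a1 : t ≤ 3 / 2) (c0 : 1 ≤ s) (c1 : s ≤ 3 / 2) :
    0 ≤ ev2 tGH2 t s :=
  ev2_nonneg (k := 12) (T := ⟨2, some (3), 2⟩) (S := ⟨2, some (3), 2⟩) (P := tGH2) (by decide +kernel)
    (by constructor <;> dsimp only <;> push_cast <;> first | trivial | linarith)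
    (by constructor <;> dsimp only <;> push_cast <;> linarith)

theorem gh2_nn_box2 {t s : ℝ} (a0 : 1 ≤ t) (a1 : t ≤ 3 / 2) (c0 : 3 / 2 ≤ s) (c1 : s ≤ 2) :
    0 ≤ ev2 tGH2 t s :=
  ev2_nonneg (k := 12) (T := ⟨2, some (3), 2⟩) (S := ⟨3, some (4), 2⟩) (P := tGH2) (by decide +kernel)
    (by constructor <;> dsimp only <;> push_cast <;> first | trivial | linarith)
    (by constructor <;> dsimp only <;> push_cast <;> linarith)

theorem gh2_nn_box3 {t s : ℝ} (a0 : 3 / 2 ≤ t) (a1 : t ≤ 2) (c0 : 1 ≤ s) (c1 : s ≤ 3 / 2) :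
    0 ≤ ev2 tGH2 t s :=
  ev2_nonneg (k := 12) (T := ⟨3, some (4), 2⟩) (S := ⟨2, some (3), 2⟩) (P := tGH2) (by decide +kernel)
    (by constructor <;> dsimp only <;> push_cast <;> first | trivial | linarith)
    (by constructor <;> dsimp only <;> push_cast <;> linarith)

theorem gh2_nn_box4 {t s : ℝ} (a0 : 3 / 2 ≤ t) (a1 : t ≤ 13 / 8) (c0 : 3 / 2 ≤ s) (c1 : s ≤ 7 / 4) :
    0 ≤ ev2 tGH2 t s :=
  ev2_nonneg (k := 12) (T := ⟨12, some (13), 8⟩) (S := ⟨6, some (7), 4⟩) (P := tGH2) (by decide +kernel)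
    (by constructor <;> dsimp only <;> push_cast <;> first | trivial | linarith)
    (by constructor <;> dsimp only <;> push_cast <;> linarith)

theorem gh2_nn_box5 {t s : ℝ} (a0 : 13 / 8 ≤ t) (a1 : t ≤ 7 / 4) (c0 : 3 / 2 ≤ s) (c1 : s ≤ 7 / 4) :
    0 ≤ ev2 tGH2 t s :=
  ev2_nonneg (k := 12) (T := ⟨13, some (14), 8⟩) (S := ⟨6, some (7), 4⟩) (P := tGH2) (by decide +kernel)
    (by constructor <;> dsimp only <;> push_cast <;> first | trivial | linarith)
    (by constructor <;> dsimp only <;> push_cast <;> linarith)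

theorem gh2_nn_box6 {t s : ℝ} (a0 : 3 / 2 ≤ t) (a1 : t ≤ 7 / 4) (c0 : 7 / 4 ≤ s) (c1 : s ≤ 2) :
    0 ≤ ev2 tGH2 t s :=
  ev2_nonneg (k := 12) (T := ⟨6, some (7), 4⟩) (S := ⟨7, some (8), 4⟩) (P := tGH2) (by decide +kernel)
    (by constructor <;> dsimp only <;> push_cast <;> first | trivial | linarith)
    (by constructor <;> dsimp only <;> push_cast <;> linarith)

theorem gh2_nn_box7 {t s : ℝ} (a0 : 7 / 4 ≤ t) (a1 : t ≤ 2) (c0 : 3 / 2 ≤ s) (c1 : s ≤ 7 / 4) :
    0 ≤ ev2 tGH2 t s :=
  ev2_nonneg (k := 12) (T := ⟨7, some (8), 4⟩) (S := ⟨6, some (7), 4⟩) (P := tGH2) (by decide +kernel)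
    (by constructor <;> dsimp only <;> push_cast <;> first | trivial | linarith)
    (by constructor <;> dsimp only <;> push_cast <;> linarith)

theorem gh2_nn_box8 {t s : ℝ} (a0 : 7 / 4 ≤ t) (a1 : t ≤ 29 / 16) (c0 : 7 / 4 ≤ s) (c1 : s ≤ 15 / 8) :
    0 ≤ ev2 tGH2 t s :=
  ev2_nonneg (k := 12) (T := ⟨28, some (29), 16⟩) (S := ⟨14, some (15), 8⟩) (P := tGH2) (by decide +kernel)
    (by constructor <;> dsimp only <;> push_cast <;> first | trivial | linarith)
    (by constructor <;> dsimp only <;> push_cast <;> linarith)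

theorem gh2_nn_box9 {t s : ℝ} (a0 : 29 / 16 ≤ t) (a1 : t ≤ 15 / 8) (c0 : 7 / 4 ≤ s) (c1 : s ≤ 15 / 8) :
    0 ≤ ev2 tGH2 t s :=
  ev2_nonneg (k := 12) (T := ⟨29, some (30), 16⟩) (S := ⟨14, some (15), 8⟩) (P := tGH2) (by decide +kernel)
    (by constructor <;> dsimp only <;> push_cast <;> first | trivial | linarith)
    (by constructor <;> dsimp only <;> push_cast <;> linarith)

theorem gh2_nn_box10 {t s : ℝ} (a0 : 7 / 4 ≤ t) (a1 : t ≤ 15 / 8) (c0 : 15 / 8 ≤ s) (c1 : s ≤ 2) :
    0 ≤ ev2 tGH2 t s :=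
  ev2_nonneg (k := 12) (T := ⟨14, some (15), 8⟩) (S := ⟨15, some (16), 8⟩) (P := tGH2) (by decide +kernel)
    (by constructor <;> dsimp only <;> push_cast <;> first | trivial | linarith)
    (by constructor <;> dsimp only <;> push_cast <;> linarith)

theorem gh2_nn_box11 {t s : ℝ} (a0 : 15 / 8 ≤ t) (a1 : t ≤ 2) (c0 : 7 / 4 ≤ s) (c1 : s ≤ 15 / 8) :
    0 ≤ ev2 tGH2 t s :=
  ev2_nonneg (k := 12) (T := ⟨15, some (16), 8⟩) (S := ⟨14, some (15), 8⟩) (P := tGH2) (by decide +kernel)
    (by constructor <;> dsimp only <;> push_cast <;> first | trivial | linarith)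
    (by constructor <;> dsimp only <;> push_cast <;> linarith)

theorem gh2_nn_box12 {t s : ℝ} (a0 : 15 / 8 ≤ t) (a1 : t ≤ 61 / 32) (c0 : 15 / 8 ≤ s) (c1 : s ≤ 31 / 16) :
    0 ≤ ev2 tGH2 t s :=
  ev2_nonneg (k := 12) (T := ⟨60, some (61), 32⟩) (S := ⟨30, some (31), 16⟩) (P := tGH2) (by decide +kernel)
    (by constructor <;> dsimp only <;> push_cast <;> first | trivial | linarith)
    (by constructor <;> dsimp only <;> push_cast <;> linarith)

theorem gh2_nn_box13 {t s : ℝ} (a0 : 61 / 32 ≤ t) (a1 : t ≤ 31 / 16) (c0 : 15 / 8 ≤ s) (c1 : s ≤ 31 / 16) :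
    0 ≤ ev2 tGH2 t s :=
  ev2_nonneg (k := 12) (T := ⟨61, some (62), 32⟩) (S := ⟨30, some (31), 16⟩) (P := tGH2) (by decide +kernel)
    (by constructor <;> dsimp only <;> push_cast <;> first | trivial | linarith)
    (by constructor <;> dsimp only <;> push_cast <;> linarith)

theorem gh2_nn_box14 {t s : ℝ} (a0 : 15 / 8 ≤ t) (a1 : t ≤ 31 / 16) (c0 : 31 / 16 ≤ s) (c1 : s ≤ 2) :
    0 ≤ ev2 tGH2 t s :=
  ev2_nonneg (k := 12) (T := ⟨30, some (31), 16⟩) (S := ⟨31, some (32), 16⟩) (P := tGH2) (by decide +kernel)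
    (by constructor <;> dsimp only <;> push_cast <;> first | trivial | linarith)
    (by constructor <;> dsimp only <;> push_cast <;> linarith)

theorem gh2_nn_box15 {t s : ℝ} (a0 : 31 / 16 ≤ t) (a1 : t ≤ 2) (c0 : 15 / 8 ≤ s) (c1 : s ≤ 31 / 16) :
    0 ≤ ev2 tGH2 t s :=
  ev2_nonneg (k := 12) (T := ⟨31, some (32), 16⟩) (S := ⟨30, some (31), 16⟩) (P := tGH2) (by decide +kernel)
    (by constructor <;> dsimp only <;> push_cast <;> first | trivial | linarith)
    (by constructor <;> dsimp only <;> push_cast <;> linarith)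

theorem gh2_nn_box16 {t s : ℝ} (a0 : 31 / 16 ≤ t) (a1 : t ≤ 125 / 64) (c0 : 31 / 16 ≤ s) (c1 : s ≤ 63 / 32) :
    0 ≤ ev2 tGH2 t s :=
  ev2_nonneg (k := 12) (T := ⟨124, some (125), 64⟩) (S := ⟨62, some (63), 32⟩) (P := tGH2) (by decide +kernel)
    (by constructor <;> dsimp only <;> push_cast <;> first | trivial | linarith)
    (by constructor <;> dsimp only <;> push_cast <;> linarith)

theorem gh2_nn_box17 {t s : ℝ} (a0 : 125 / 64 ≤ t) (a1 : t ≤ 63 / 32) (c0 : 31 / 16 ≤ s) (c1 : s ≤ 63 / 32) :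
    0 ≤ ev2 tGH2 t s :=
  ev2_nonneg (k := 12) (T := ⟨125, some (126), 64⟩) (S := ⟨62, some (63), 32⟩) (P := tGH2) (by decide +kernel)
    (by constructor <;> dsimp only <;> push_cast <;> first | trivial | linarith)
    (by constructor <;> dsimp only <;> push_cast <;> linarith)

theorem gh2_nn_box18 {t s : ℝ} (a0 : 31 / 16 ≤ t) (a1 : t ≤ 63 / 32) (c0 : 63 / 32 ≤ s) (c1 : s ≤ 2) :
    0 ≤ ev2 tGH2 t s :=
  ev2_nonneg (k := 12) (T := ⟨62, some (63), 32⟩) (S := ⟨63, some (64), 32⟩) (P := tGH2) (by decide +kernel)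
    (by constructor <;> dsimp only <;> push_cast <;> first | trivial | linarith)
    (by constructor <;> dsimp only <;> push_cast <;> linarith)

theorem gh2_nn_box19 {t s : ℝ} (a0 : 63 / 32 ≤ t) (a1 : t ≤ 2) (c0 : 31 / 16 ≤ s) (c1 : s ≤ 63 / 32) :
    0 ≤ ev2 tGH2 t s :=
  ev2_nonneg (k := 12) (T := ⟨63, some (64), 32⟩) (S := ⟨62, some (63), 32⟩) (P := tGH2) (by decide +kernel)
    (by constructor <;> dsimp only <;> push_cast <;> first | trivial | linarith)
    (by constructor <;> dsimp only <;> push_cast <;> linarith)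

theorem gh2_nn_box20 {t s : ℝ} (a0 : 2 ≤ t) (c0 : 1 ≤ s) (c1 : s ≤ 2) :
    0 ≤ ev2 tGH2 t s :=
  ev2_nonneg (k := 12) (T := ⟨2, none, 1⟩) (S := ⟨1, some (2), 1⟩) (P := tGH2) (by decide +kernel)
    (by constructor <;> dsimp only <;> push_cast <;> first | trivial | linarith)
    (by constructor <;> dsimp only <;> push_cast <;> linarith)

theorem gh2_nn {t s : ℝ} (ht0 : 0 ≤ t) (hs0 : 1 ≤ s) (hs1 : s ≤ 2)
    (hz : ¬((63 / 32 ≤ t ∧ t ≤ 65 / 32) ∧ 63 / 32 ≤ s)) :
    0 ≤ ev2 tGH2 t s := by
  rcases le_total t (2) with h0 | h0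
  · rcases le_total t (1) with h1 | h1
    · exact gh2_nn_box0 (by linarith) (by linarith) (by linarith) (by linarith)
    · rcases le_total t (3 / 2) with h2 | h2
      · rcases le_total s (3 / 2) with h3 | h3
        · exact gh2_nn_box1 (by linarith) (by linarith) (by linarith) (by linarith)
        · exact gh2_nn_box2 (by linarith) (by linarith) (by linarith) (by linarith)
      · rcases le_total s (3 / 2) with h3 | h3
        · exact gh2_nn_box3 (by linarith) (by linarith) (by linarith) (by linarith)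
        · rcases le_total t (7 / 4) with h4 | h4
          · rcases le_total s (7 / 4) with h5 | h5
            · rcases le_total t (13 / 8) with h6 | h6
              · exact gh2_nn_box4 (by linarith) (by linarith) (by linarith) (by linarith)
              · exact gh2_nn_box5 (by linarith) (by linarith) (by linarith) (by linarith)
            · exact gh2_nn_box6 (by linarith) (by linarith) (by linarith) (by linarith)
          · rcases le_total s (7 / 4) with h5 | h5
            · exact gh2_nn_box7 (by linarith) (by linarith) (by linarith) (by linarith)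
            · rcases le_total t (15 / 8) with h6 | h6
              · rcases le_total s (15 / 8) with h7 | h7
                · rcases le_total t (29 / 16) with h8 | h8
                  · exact gh2_nn_box8 (by linarith) (by linarith) (by linarith) (by linarith)
                  · exact gh2_nn_box9 (by linarith) (by linarith) (by linarith) (by linarith)
                · exact gh2_nn_box10 (by linarith) (by linarith) (by linarith) (by linarith)
              · rcases le_total s (15 / 8) with h7 | h7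
                · exact gh2_nn_box11 (by linarith) (by linarith) (by linarith) (by linarith)
                · rcases le_total t (31 / 16) with h8 | h8
                  · rcases le_total s (31 / 16) with h9 | h9
                    · rcases le_total t (61 / 32) with h10 | h10
                      · exact gh2_nn_box12 (by linarith) (by linarith) (by linarith) (by linarith)
                      · exact gh2_nn_box13 (by linarith) (by linarith) (by linarith) (by linarith)
                    · exact gh2_nn_box14 (by linarith) (by linarith) (by linarith) (by linarith)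
                  · rcases le_total s (31 / 16) with h9 | h9
                    · exact gh2_nn_box15 (by linarith) (by linarith) (by linarith) (by linarith)
                    · rcases le_total t (63 / 32) with h10 | h10
                      · rcases le_total s (63 / 32) with h11 | h11
                        · rcases le_total t (125 / 64) with h12 | h12
                          · exact gh2_nn_box16 (by linarith) (by linarith) (by linarith) (by linarith)
                          · exact gh2_nn_box17 (by linarith) (by linarith) (by linarith) (by linarith)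
                        · exact gh2_nn_box18 (by linarith) (by linarith) (by linarith) (by linarith)
                      · rcases le_total s (63 / 32) with h11 | h11
                        · exact gh2_nn_box19 (by linarith) (by linarith) (by linarith) (by linarith)
                        · exact absurd ⟨⟨by linarith, by linarith⟩, by linarith⟩ hz
  · exact gh2_nn_box20 (by linarith) (by linarith) (by linarith)

theorem d2_nn {t s : ℝ} (ht0 : 63 / 32 ≤ t) (ht1 : t ≤ 65 / 32) (hs0 : 63 / 32 ≤ s) (hs1 : s ≤ 2) :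
    0 ≤ ev2 tD2 t s := by
  exact ev2_nonneg (k := 10) (T := ⟨63, some (65), 32⟩) (S := ⟨63, some (64), 32⟩) (P := tD2) (by decide +kernel)
    (by constructor <;> dsimp only <;> push_cast <;> linarith)
    (by constructor <;> dsimp only <;> push_cast <;> linarith)

theorem gh3_nn_box0 {t s : ℝ} (a0 : 0 ≤ t) (a1 : t ≤ 1) (c0 : 1 ≤ s) (c1 : s ≤ 2) :
    0 ≤ ev2 tGH3 t s :=
  ev2_nonneg (k := 12) (T := ⟨0, some (1), 1⟩) (S := ⟨1, some (2), 1⟩) (P := tGH3) (by decide +kernel)
    (by constructor <;> dsimp only <;> push_cast <;> first | trivial | linarith)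
    (by constructor <;> dsimp only <;> push_cast <;> linarith)

theorem gh3_nn_box1 {t s : ℝ} (a0 : 1 ≤ t) (a1 : t ≤ 3 / 2) (c0 : 1 ≤ s) (c1 : s ≤ 3 / 2) :
    0 ≤ ev2 tGH3 t s :=
  ev2_nonneg (k := 12) (T := ⟨2, some (3), 2⟩) (S := ⟨2, some (3), 2⟩) (P := tGH3) (by decide +kernel)
    (by constructor <;> dsimp only <;> push_cast <;> first | trivial | linarith)
    (by constructor <;> dsimp only <;> push_cast <;> linarith)

theorem gh3_nn_box2 {t s : ℝ} (a0 : 1 ≤ t) (a1 : t ≤ 3 / 2) (c0 : 3 / 2 ≤ s) (c1 : s ≤ 2) :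
    0 ≤ ev2 tGH3 t s :=
  ev2_nonneg (k := 12) (T := ⟨2, some (3), 2⟩) (S := ⟨3, some (4), 2⟩) (P := tGH3) (by decide +kernel)
    (by constructor <;> dsimp only <;> push_cast <;> first | trivial | linarith)
    (by constructor <;> dsimp only <;> push_cast <;> linarith)

theorem gh3_nn_box3 {t s : ℝ} (a0 : 3 / 2 ≤ t) (a1 : t ≤ 2) (c0 : 1 ≤ s) (c1 : s ≤ 3 / 2) :
    0 ≤ ev2 tGH3 t s :=
  ev2_nonneg (k := 12) (T := ⟨3, some (4), 2⟩) (S := ⟨2, some (3), 2⟩) (P := tGH3) (by decide +kernel)
    (by constructor <;> dsimp only <;> push_cast <;> first | trivial | linarith)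
    (by constructor <;> dsimp only <;> push_cast <;> linarith)

theorem gh3_nn_box4 {t s : ℝ} (a0 : 3 / 2 ≤ t) (a1 : t ≤ 13 / 8) (c0 : 3 / 2 ≤ s) (c1 : s ≤ 7 / 4) :
    0 ≤ ev2 tGH3 t s :=
  ev2_nonneg (k := 12) (T := ⟨12, some (13), 8⟩) (S := ⟨6, some (7), 4⟩) (P := tGH3) (by decide +kernel)
    (by constructor <;> dsimp only <;> push_cast <;> first | trivial | linarith)
    (by constructor <;> dsimp only <;> push_cast <;> linarith)

theorem gh3_nn_box5 {t s : ℝ} (a0 : 13 / 8 ≤ t) (a1 : t ≤ 7 / 4) (c0 : 3 / 2 ≤ s) (c1 : s ≤ 13 / 8) :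
    0 ≤ ev2 tGH3 t s :=
  ev2_nonneg (k := 12) (T := ⟨13, some (14), 8⟩) (S := ⟨12, some (13), 8⟩) (P := tGH3) (by decide +kernel)
    (by constructor <;> dsimp only <;> push_cast <;> first | trivial | linarith)
    (by constructor <;> dsimp only <;> push_cast <;> linarith)

theorem gh3_nn_box6 {t s : ℝ} (a0 : 13 / 8 ≤ t) (a1 : t ≤ 7 / 4) (c0 : 13 / 8 ≤ s) (c1 : s ≤ 7 / 4) :
    0 ≤ ev2 tGH3 t s :=
  ev2_nonneg (k := 12) (T := ⟨13, some (14), 8⟩) (S := ⟨13, some (14), 8⟩) (P := tGH3) (by decide +kernel)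
    (by constructor <;> dsimp only <;> push_cast <;> first | trivial | linarith)
    (by constructor <;> dsimp only <;> push_cast <;> linarith)

theorem gh3_nn_box7 {t s : ℝ} (a0 : 3 / 2 ≤ t) (a1 : t ≤ 7 / 4) (c0 : 7 / 4 ≤ s) (c1 : s ≤ 2) :
    0 ≤ ev2 tGH3 t s :=
  ev2_nonneg (k := 12) (T := ⟨6, some (7), 4⟩) (S := ⟨7, some (8), 4⟩) (P := tGH3) (by decide +kernel)
    (by constructor <;> dsimp only <;> push_cast <;> first | trivial | linarith)
    (by constructor <;> dsimp only <;> push_cast <;> linarith)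

theorem gh3_nn_box8 {t s : ℝ} (a0 : 7 / 4 ≤ t) (a1 : t ≤ 2) (c0 : 3 / 2 ≤ s) (c1 : s ≤ 7 / 4) :
    0 ≤ ev2 tGH3 t s :=
  ev2_nonneg (k := 12) (T := ⟨7, some (8), 4⟩) (S := ⟨6, some (7), 4⟩) (P := tGH3) (by decide +kernel)
    (by constructor <;> dsimp only <;> push_cast <;> first | trivial | linarith)
    (by constructor <;> dsimp only <;> push_cast <;> linarith)

theorem gh3_nn_box9 {t s : ℝ} (a0 : 7 / 4 ≤ t) (a1 : t ≤ 29 / 16) (c0 : 7 / 4 ≤ s) (c1 : s ≤ 15 / 8) :
    0 ≤ ev2 tGH3 t s :=
  ev2_nonneg (k := 12) (T := ⟨28, some (29), 16⟩) (S := ⟨14, some (15), 8⟩) (P := tGH3) (by decide +kernel)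
    (by constructor <;> dsimp only <;> push_cast <;> first | trivial | linarith)
    (by constructor <;> dsimp only <;> push_cast <;> linarith)

theorem gh3_nn_box10 {t s : ℝ} (a0 : 29 / 16 ≤ t) (a1 : t ≤ 15 / 8) (c0 : 7 / 4 ≤ s) (c1 : s ≤ 29 / 16) :
    0 ≤ ev2 tGH3 t s :=
  ev2_nonneg (k := 12) (T := ⟨29, some (30), 16⟩) (S := ⟨28, some (29), 16⟩) (P := tGH3) (by decide +kernel)
    (by constructor <;> dsimp only <;> push_cast <;> first | trivial | linarith)
    (by constructor <;> dsimp only <;> push_cast <;> linarith)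

theorem gh3_nn_box11 {t s : ℝ} (a0 : 29 / 16 ≤ t) (a1 : t ≤ 15 / 8) (c0 : 29 / 16 ≤ s) (c1 : s ≤ 15 / 8) :
    0 ≤ ev2 tGH3 t s :=
  ev2_nonneg (k := 12) (T := ⟨29, some (30), 16⟩) (S := ⟨29, some (30), 16⟩) (P := tGH3) (by decide +kernel)
    (by constructor <;> dsimp only <;> push_cast <;> first | trivial | linarith)
    (by constructor <;> dsimp only <;> push_cast <;> linarith)

theorem gh3_nn_box12 {t s : ℝ} (a0 : 7 / 4 ≤ t) (a1 : t ≤ 15 / 8) (c0 : 15 / 8 ≤ s) (c1 : s ≤ 2) :
    0 ≤ ev2 tGH3 t s :=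
  ev2_nonneg (k := 12) (T := ⟨14, some (15), 8⟩) (S := ⟨15, some (16), 8⟩) (P := tGH3) (by decide +kernel)
    (by constructor <;> dsimp only <;> push_cast <;> first | trivial | linarith)
    (by constructor <;> dsimp only <;> push_cast <;> linarith)

theorem gh3_nn_box13 {t s : ℝ} (a0 : 15 / 8 ≤ t) (a1 : t ≤ 2) (c0 : 7 / 4 ≤ s) (c1 : s ≤ 15 / 8) :
    0 ≤ ev2 tGH3 t s :=
  ev2_nonneg (k := 12) (T := ⟨15, some (16), 8⟩) (S := ⟨14, some (15), 8⟩) (P := tGH3) (by decide +kernel)
    (by constructor <;> dsimp only <;> push_cast <;> first | trivial | linarith)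
    (by constructor <;> dsimp only <;> push_cast <;> linarith)

theorem gh3_nn_box14 {t s : ℝ} (a0 : 15 / 8 ≤ t) (a1 : t ≤ 61 / 32) (c0 : 15 / 8 ≤ s) (c1 : s ≤ 31 / 16) :
    0 ≤ ev2 tGH3 t s :=
  ev2_nonneg (k := 12) (T := ⟨60, some (61), 32⟩) (S := ⟨30, some (31), 16⟩) (P := tGH3) (by decide +kernel)
    (by constructor <;> dsimp only <;> push_cast <;> first | trivial | linarith)
    (by constructor <;> dsimp only <;> push_cast <;> linarith)

theorem gh3_nn_box15 {t s : ℝ} (a0 : 61 / 32 ≤ t) (a1 : t ≤ 31 / 16) (c0 : 15 / 8 ≤ s) (c1 : s ≤ 61 / 32) :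
    0 ≤ ev2 tGH3 t s :=
  ev2_nonneg (k := 12) (T := ⟨61, some (62), 32⟩) (S := ⟨60, some (61), 32⟩) (P := tGH3) (by decide +kernel)
    (by constructor <;> dsimp only <;> push_cast <;> first | trivial | linarith)
    (by constructor <;> dsimp only <;> push_cast <;> linarith)

theorem gh3_nn_box16 {t s : ℝ} (a0 : 61 / 32 ≤ t) (a1 : t ≤ 31 / 16) (c0 : 61 / 32 ≤ s) (c1 : s ≤ 31 / 16) :
    0 ≤ ev2 tGH3 t s :=
  ev2_nonneg (k := 12) (T := ⟨61, some (62), 32⟩) (S := ⟨61, some (62), 32⟩) (P := tGH3) (by decide +kernel)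
    (by constructor <;> dsimp only <;> push_cast <;> first | trivial | linarith)
    (by constructor <;> dsimp only <;> push_cast <;> linarith)

theorem gh3_nn_box17 {t s : ℝ} (a0 : 15 / 8 ≤ t) (a1 : t ≤ 31 / 16) (c0 : 31 / 16 ≤ s) (c1 : s ≤ 2) :
    0 ≤ ev2 tGH3 t s :=
  ev2_nonneg (k := 12) (T := ⟨30, some (31), 16⟩) (S := ⟨31, some (32), 16⟩) (P := tGH3) (by decide +kernel)
    (by constructor <;> dsimp only <;> push_cast <;> first | trivial | linarith)
    (by constructor <;> dsimp only <;> push_cast <;> linarith)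

theorem gh3_nn_box18 {t s : ℝ} (a0 : 31 / 16 ≤ t) (a1 : t ≤ 2) (c0 : 15 / 8 ≤ s) (c1 : s ≤ 31 / 16) :
    0 ≤ ev2 tGH3 t s :=
  ev2_nonneg (k := 12) (T := ⟨31, some (32), 16⟩) (S := ⟨30, some (31), 16⟩) (P := tGH3) (by decide +kernel)
    (by constructor <;> dsimp only <;> push_cast <;> first | trivial | linarith)
    (by constructor <;> dsimp only <;> push_cast <;> linarith)

theorem gh3_nn_box19 {t s : ℝ} (a0 : 31 / 16 ≤ t) (a1 : t ≤ 125 / 64) (c0 : 31 / 16 ≤ s) (c1 : s ≤ 63 / 32) :
    0 ≤ ev2 tGH3 t s :=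
  ev2_nonneg (k := 12) (T := ⟨124, some (125), 64⟩) (S := ⟨62, some (63), 32⟩) (P := tGH3) (by decide +kernel)
    (by constructor <;> dsimp only <;> push_cast <;> first | trivial | linarith)
    (by constructor <;> dsimp only <;> push_cast <;> linarith)

theorem gh3_nn_box20 {t s : ℝ} (a0 : 125 / 64 ≤ t) (a1 : t ≤ 63 / 32) (c0 : 31 / 16 ≤ s) (c1 : s ≤ 125 / 64) :
    0 ≤ ev2 tGH3 t s :=
  ev2_nonneg (k := 12) (T := ⟨125, some (126), 64⟩) (S := ⟨124, some (125), 64⟩) (P := tGH3) (by decide +kernel)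
    (by constructor <;> dsimp only <;> push_cast <;> first | trivial | linarith)
    (by constructor <;> dsimp only <;> push_cast <;> linarith)

theorem gh3_nn_box21 {t s : ℝ} (a0 : 125 / 64 ≤ t) (a1 : t ≤ 63 / 32) (c0 : 125 / 64 ≤ s) (c1 : s ≤ 63 / 32) :
    0 ≤ ev2 tGH3 t s :=
  ev2_nonneg (k := 12) (T := ⟨125, some (126), 64⟩) (S := ⟨125, some (126), 64⟩) (P := tGH3) (by decide +kernel)
    (by constructor <;> dsimp only <;> push_cast <;> first | trivial | linarith)
    (by constructor <;> dsimp only <;> push_cast <;> linarith)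

theorem gh3_nn_box22 {t s : ℝ} (a0 : 31 / 16 ≤ t) (a1 : t ≤ 63 / 32) (c0 : 63 / 32 ≤ s) (c1 : s ≤ 2) :
    0 ≤ ev2 tGH3 t s :=
  ev2_nonneg (k := 12) (T := ⟨62, some (63), 32⟩) (S := ⟨63, some (64), 32⟩) (P := tGH3) (by decide +kernel)
    (by constructor <;> dsimp only <;> push_cast <;> first | trivial | linarith)
    (by constructor <;> dsimp only <;> push_cast <;> linarith)

theorem gh3_nn_box23 {t s : ℝ} (a0 : 63 / 32 ≤ t) (a1 : t ≤ 2) (c0 : 31 / 16 ≤ s) (c1 : s ≤ 63 / 32) :
    0 ≤ ev2 tGH3 t s :=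
  ev2_nonneg (k := 12) (T := ⟨63, some (64), 32⟩) (S := ⟨62, some (63), 32⟩) (P := tGH3) (by decide +kernel)
    (by constructor <;> dsimp only <;> push_cast <;> first | trivial | linarith)
    (by constructor <;> dsimp only <;> push_cast <;> linarith)

theorem gh3_nn_box24 {t s : ℝ} (a0 : 2 ≤ t) (c0 : 1 ≤ s) (c1 : s ≤ 2) :
    0 ≤ ev2 tGH3 t s :=
  ev2_nonneg (k := 12) (T := ⟨2, none, 1⟩) (S := ⟨1, some (2), 1⟩) (P := tGH3) (by decide +kernel)
    (by constructor <;> dsimp only <;> push_cast <;> first | trivial | linarith)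
    (by constructor <;> dsimp only <;> push_cast <;> linarith)

theorem gh3_nn {t s : ℝ} (ht0 : 0 ≤ t) (hs0 : 1 ≤ s) (hs1 : s ≤ 2)
    (hz : ¬((63 / 32 ≤ t ∧ t ≤ 65 / 32) ∧ 63 / 32 ≤ s)) :
    0 ≤ ev2 tGH3 t s := by
  rcases le_total t (2) with h0 | h0
  · rcases le_total t (1) with h1 | h1
    · exact gh3_nn_box0 (by linarith) (by linarith) (by linarith) (by linarith)
    · rcases le_total t (3 / 2) with h2 | h2
      · rcases le_total s (3 / 2) with h3 | h3
        · exact gh3_nn_box1 (by linarith) (by linarith) (by linarith) (by linarith)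
        · exact gh3_nn_box2 (by linarith) (by linarith) (by linarith) (by linarith)
      · rcases le_total s (3 / 2) with h3 | h3
        · exact gh3_nn_box3 (by linarith) (by linarith) (by linarith) (by linarith)
        · rcases le_total t (7 / 4) with h4 | h4
          · rcases le_total s (7 / 4) with h5 | h5
            · rcases le_total t (13 / 8) with h6 | h6
              · exact gh3_nn_box4 (by linarith) (by linarith) (by linarith) (by linarith)
              · rcases le_total s (13 / 8) with h7 | h7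
                · exact gh3_nn_box5 (by linarith) (by linarith) (by linarith) (by linarith)
                · exact gh3_nn_box6 (by linarith) (by linarith) (by linarith) (by linarith)
            · exact gh3_nn_box7 (by linarith) (by linarith) (by linarith) (by linarith)
          · rcases le_total s (7 / 4) with h5 | h5
            · exact gh3_nn_box8 (by linarith) (by linarith) (by linarith) (by linarith)
            · rcases le_total t (15 / 8) with h6 | h6
              · rcases le_total s (15 / 8) with h7 | h7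
                · rcases le_total t (29 / 16) with h8 | h8
                  · exact gh3_nn_box9 (by linarith) (by linarith) (by linarith) (by linarith)
                  · rcases le_total s (29 / 16) with h9 | h9
                    · exact gh3_nn_box10 (by linarith) (by linarith) (by linarith) (by linarith)
                    · exact gh3_nn_box11 (by linarith) (by linarith) (by linarith) (by linarith)
                · exact gh3_nn_box12 (by linarith) (by linarith) (by linarith) (by linarith)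
              · rcases le_total s (15 / 8) with h7 | h7
                · exact gh3_nn_box13 (by linarith) (by linarith) (by linarith) (by linarith)
                · rcases le_total t (31 / 16) with h8 | h8
                  · rcases le_total s (31 / 16) with h9 | h9
                    · rcases le_total t (61 / 32) with h10 | h10
                      · exact gh3_nn_box14 (by linarith) (by linarith) (by linarith) (by linarith)
                      · rcases le_total s (61 / 32) with h11 | h11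
                        · exact gh3_nn_box15 (by linarith) (by linarith) (by linarith) (by linarith)
                        · exact gh3_nn_box16 (by linarith) (by linarith) (by linarith) (by linarith)
                    · exact gh3_nn_box17 (by linarith) (by linarith) (by linarith) (by linarith)
                  · rcases le_total s (31 / 16) with h9 | h9
                    · exact gh3_nn_box18 (by linarith) (by linarith) (by linarith) (by linarith)
                    · rcases le_total t (63 / 32) with h10 | h10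
                      · rcases le_total s (63 / 32) with h11 | h11
                        · rcases le_total t (125 / 64) with h12 | h12
                          · exact gh3_nn_box19 (by linarith) (by linarith) (by linarith) (by linarith)
                          · rcases le_total s (125 / 64) with h13 | h13
                            · exact gh3_nn_box20 (by linarith) (by linarith) (by linarith) (by linarith)
                            · exact gh3_nn_box21 (by linarith) (by linarith) (by linarith) (by linarith)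
                        · exact gh3_nn_box22 (by linarith) (by linarith) (by linarith) (by linarith)
                      · rcases le_total s (63 / 32) with h11 | h11
                        · exact gh3_nn_box23 (by linarith) (by linarith) (by linarith) (by linarith)
                        · exact absurd ⟨⟨by linarith, by linarith⟩, by linarith⟩ hz
  · exact gh3_nn_box24 (by linarith) (by linarith) (by linarith)

theorem d3_nn {t s : ℝ} (ht0 : 63 / 32 ≤ t) (ht1 : t ≤ 65 / 32) (hs0 : 63 / 32 ≤ s) (hs1 : s ≤ 2) :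
    0 ≤ ev2 tD3 t s := by
  exact ev2_nonneg (k := 10) (T := ⟨63, some (65), 32⟩) (S := ⟨63, some (64), 32⟩) (P := tD3) (by decide +kernel)
    (by constructor <;> dsimp only <;> push_cast <;> linarith)
    (by constructor <;> dsimp only <;> push_cast <;> linarith)

theorem gh4_nn_box0 {t s : ℝ} (a0 : 0 ≤ t) (a1 : t ≤ 1) (c0 : 1 ≤ s) (c1 : s ≤ 2) :
    0 ≤ ev2 tGH4 t s :=
  ev2_nonneg (k := 12) (T := ⟨0, some (1), 1⟩) (S := ⟨1, some (2), 1⟩) (P := tGH4) (by decide +kernel)
    (by constructor <;> dsimp only <;> push_cast <;> first | trivial | linarith)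
    (by constructor <;> dsimp only <;> push_cast <;> linarith)

theorem gh4_nn_box1 {t s : ℝ} (a0 : 1 ≤ t) (a1 : t ≤ 5 / 4) (c0 : 1 ≤ s) (c1 : s ≤ 3 / 2) :
    0 ≤ ev2 tGH4 t s :=
  ev2_nonneg (k := 12) (T := ⟨4, some (5), 4⟩) (S := ⟨2, some (3), 2⟩) (P := tGH4) (by decide +kernel)
    (by constructor <;> dsimp only <;> push_cast <;> first | trivial | linarith)
    (by constructor <;> dsimp only <;> push_cast <;> linarith)

theorem gh4_nn_box2 {t s : ℝ} (a0 : 5 / 4 ≤ t) (a1 : t ≤ 3 / 2) (c0 : 1 ≤ s) (c1 : s ≤ 3 / 2) :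
    0 ≤ ev2 tGH4 t s :=
  ev2_nonneg (k := 12) (T := ⟨5, some (6), 4⟩) (S := ⟨2, some (3), 2⟩) (P := tGH4) (by decide +kernel)
    (by constructor <;> dsimp only <;> push_cast <;> first | trivial | linarith)
    (by constructor <;> dsimp only <;> push_cast <;> linarith)

theorem gh4_nn_box3 {t s : ℝ} (a0 : 1 ≤ t) (a1 : t ≤ 3 / 2) (c0 : 3 / 2 ≤ s) (c1 : s ≤ 2) :
    0 ≤ ev2 tGH4 t s :=
  ev2_nonneg (k := 12) (T := ⟨2, some (3), 2⟩) (S := ⟨3, some (4), 2⟩) (P := tGH4) (by decide +kernel)
    (by constructor <;> dsimp only <;> push_cast <;> first | trivial | linarith)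
    (by constructor <;> dsimp only <;> push_cast <;> linarith)

theorem gh4_nn_box4 {t s : ℝ} (a0 : 3 / 2 ≤ t) (a1 : t ≤ 2) (c0 : 1 ≤ s) (c1 : s ≤ 3 / 2) :
    0 ≤ ev2 tGH4 t s :=
  ev2_nonneg (k := 12) (T := ⟨3, some (4), 2⟩) (S := ⟨2, some (3), 2⟩) (P := tGH4) (by decide +kernel)
    (by constructor <;> dsimp only <;> push_cast <;> first | trivial | linarith)
    (by constructor <;> dsimp only <;> push_cast <;> linarith)

theorem gh4_nn_box5 {t s : ℝ} (a0 : 3 / 2 ≤ t) (a1 : t ≤ 13 / 8) (c0 : 3 / 2 ≤ s) (c1 : s ≤ 13 / 8) :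
    0 ≤ ev2 tGH4 t s :=
  ev2_nonneg (k := 12) (T := ⟨12, some (13), 8⟩) (S := ⟨12, some (13), 8⟩) (P := tGH4) (by decide +kernel)
    (by constructor <;> dsimp only <;> push_cast <;> first | trivial | linarith)
    (by constructor <;> dsimp only <;> push_cast <;> linarith)

theorem gh4_nn_box6 {t s : ℝ} (a0 : 3 / 2 ≤ t) (a1 : t ≤ 13 / 8) (c0 : 13 / 8 ≤ s) (c1 : s ≤ 7 / 4) :
    0 ≤ ev2 tGH4 t s :=
  ev2_nonneg (k := 12) (T := ⟨12, some (13), 8⟩) (S := ⟨13, some (14), 8⟩) (P := tGH4) (by decide +kernel)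
    (by constructor <;> dsimp only <;> push_cast <;> first | trivial | linarith)
    (by constructor <;> dsimp only <;> push_cast <;> linarith)

theorem gh4_nn_box7 {t s : ℝ} (a0 : 13 / 8 ≤ t) (a1 : t ≤ 7 / 4) (c0 : 3 / 2 ≤ s) (c1 : s ≤ 13 / 8) :
    0 ≤ ev2 tGH4 t s :=
  ev2_nonneg (k := 12) (T := ⟨13, some (14), 8⟩) (S := ⟨12, some (13), 8⟩) (P := tGH4) (by decide +kernel)
    (by constructor <;> dsimp only <;> push_cast <;> first | trivial | linarith)
    (by constructor <;> dsimp only <;> push_cast <;> linarith)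

theorem gh4_nn_box8 {t s : ℝ} (a0 : 13 / 8 ≤ t) (a1 : t ≤ 27 / 16) (c0 : 13 / 8 ≤ s) (c1 : s ≤ 7 / 4) :
    0 ≤ ev2 tGH4 t s :=
  ev2_nonneg (k := 12) (T := ⟨26, some (27), 16⟩) (S := ⟨13, some (14), 8⟩) (P := tGH4) (by decide +kernel)
    (by constructor <;> dsimp only <;> push_cast <;> first | trivial | linarith)
    (by constructor <;> dsimp only <;> push_cast <;> linarith)

theorem gh4_nn_box9 {t s : ℝ} (a0 : 27 / 16 ≤ t) (a1 : t ≤ 7 / 4) (c0 : 13 / 8 ≤ s) (c1 : s ≤ 7 / 4) :
    0 ≤ ev2 tGH4 t s :=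
  ev2_nonneg (k := 12) (T := ⟨27, some (28), 16⟩) (S := ⟨13, some (14), 8⟩) (P := tGH4) (by decide +kernel)
    (by constructor <;> dsimp only <;> push_cast <;> first | trivial | linarith)
    (by constructor <;> dsimp only <;> push_cast <;> linarith)

theorem gh4_nn_box10 {t s : ℝ} (a0 : 3 / 2 ≤ t) (a1 : t ≤ 7 / 4) (c0 : 7 / 4 ≤ s) (c1 : s ≤ 2) :
    0 ≤ ev2 tGH4 t s :=
  ev2_nonneg (k := 12) (T := ⟨6, some (7), 4⟩) (S := ⟨7, some (8), 4⟩) (P := tGH4) (by decide +kernel)
    (by constructor <;> dsimp only <;> push_cast <;> first | trivial | linarith)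
    (by constructor <;> dsimp only <;> push_cast <;> linarith)

theorem gh4_nn_box11 {t s : ℝ} (a0 : 7 / 4 ≤ t) (a1 : t ≤ 2) (c0 : 3 / 2 ≤ s) (c1 : s ≤ 7 / 4) :
    0 ≤ ev2 tGH4 t s :=
  ev2_nonneg (k := 12) (T := ⟨7, some (8), 4⟩) (S := ⟨6, some (7), 4⟩) (P := tGH4) (by decide +kernel)
    (by constructor <;> dsimp only <;> push_cast <;> first | trivial | linarith)
    (by constructor <;> dsimp only <;> push_cast <;> linarith)

theorem gh4_nn_box12 {t s : ℝ} (a0 : 7 / 4 ≤ t) (a1 : t ≤ 29 / 16) (c0 : 7 / 4 ≤ s) (c1 : s ≤ 29 / 16) :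
    0 ≤ ev2 tGH4 t s :=
  ev2_nonneg (k := 12) (T := ⟨28, some (29), 16⟩) (S := ⟨28, some (29), 16⟩) (P := tGH4) (by decide +kernel)
    (by constructor <;> dsimp only <;> push_cast <;> first | trivial | linarith)
    (by constructor <;> dsimp only <;> push_cast <;> linarith)

theorem gh4_nn_box13 {t s : ℝ} (a0 : 7 / 4 ≤ t) (a1 : t ≤ 29 / 16) (c0 : 29 / 16 ≤ s) (c1 : s ≤ 15 / 8) :
    0 ≤ ev2 tGH4 t s :=
  ev2_nonneg (k := 12) (T := ⟨28, some (29), 16⟩) (S := ⟨29, some (30), 16⟩) (P := tGH4) (by decide +kernel)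
    (by constructor <;> dsimp only <;> push_cast <;> first | trivial | linarith)
    (by constructor <;> dsimp only <;> push_cast <;> linarith)

theorem gh4_nn_box14 {t s : ℝ} (a0 : 29 / 16 ≤ t) (a1 : t ≤ 15 / 8) (c0 : 7 / 4 ≤ s) (c1 : s ≤ 29 / 16) :
    0 ≤ ev2 tGH4 t s :=
  ev2_nonneg (k := 12) (T := ⟨29, some (30), 16⟩) (S := ⟨28, some (29), 16⟩) (P := tGH4) (by decide +kernel)
    (by constructor <;> dsimp only <;> push_cast <;> first | trivial | linarith)
    (by constructor <;> dsimp only <;> push_cast <;> linarith)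

theorem gh4_nn_box15 {t s : ℝ} (a0 : 29 / 16 ≤ t) (a1 : t ≤ 59 / 32) (c0 : 29 / 16 ≤ s) (c1 : s ≤ 15 / 8) :
    0 ≤ ev2 tGH4 t s :=
  ev2_nonneg (k := 12) (T := ⟨58, some (59), 32⟩) (S := ⟨29, some (30), 16⟩) (P := tGH4) (by decide +kernel)
    (by constructor <;> dsimp only <;> push_cast <;> first | trivial | linarith)
    (by constructor <;> dsimp only <;> push_cast <;> linarith)

theorem gh4_nn_box16 {t s : ℝ} (a0 : 59 / 32 ≤ t) (a1 : t ≤ 15 / 8) (c0 : 29 / 16 ≤ s) (c1 : s ≤ 15 / 8) :
    0 ≤ ev2 tGH4 t s :=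
  ev2_nonneg (k := 12) (T := ⟨59, some (60), 32⟩) (S := ⟨29, some (30), 16⟩) (P := tGH4) (by decide +kernel)
    (by constructor <;> dsimp only <;> push_cast <;> first | trivial | linarith)
    (by constructor <;> dsimp only <;> push_cast <;> linarith)

theorem gh4_nn_box17 {t s : ℝ} (a0 : 7 / 4 ≤ t) (a1 : t ≤ 15 / 8) (c0 : 15 / 8 ≤ s) (c1 : s ≤ 2) :
    0 ≤ ev2 tGH4 t s :=
  ev2_nonneg (k := 12) (T := ⟨14, some (15), 8⟩) (S := ⟨15, some (16), 8⟩) (P := tGH4) (by decide +kernel)
    (by constructor <;> dsimp only <;> push_cast <;> first | trivial | linarith)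
    (by constructor <;> dsimp only <;> push_cast <;> linarith)

theorem gh4_nn_box18 {t s : ℝ} (a0 : 15 / 8 ≤ t) (a1 : t ≤ 2) (c0 : 7 / 4 ≤ s) (c1 : s ≤ 15 / 8) :
    0 ≤ ev2 tGH4 t s :=
  ev2_nonneg (k := 12) (T := ⟨15, some (16), 8⟩) (S := ⟨14, some (15), 8⟩) (P := tGH4) (by decide +kernel)
    (by constructor <;> dsimp only <;> push_cast <;> first | trivial | linarith)
    (by constructor <;> dsimp only <;> push_cast <;> linarith)

theorem gh4_nn_box19 {t s : ℝ} (a0 : 15 / 8 ≤ t) (a1 : t ≤ 61 / 32) (c0 : 15 / 8 ≤ s) (c1 : s ≤ 61 / 32) :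
    0 ≤ ev2 tGH4 t s :=
  ev2_nonneg (k := 12) (T := ⟨60, some (61), 32⟩) (S := ⟨60, some (61), 32⟩) (P := tGH4) (by decide +kernel)
    (by constructor <;> dsimp only <;> push_cast <;> first | trivial | linarith)
    (by constructor <;> dsimp only <;> push_cast <;> linarith)

theorem gh4_nn_box20 {t s : ℝ} (a0 : 15 / 8 ≤ t) (a1 : t ≤ 61 / 32) (c0 : 61 / 32 ≤ s) (c1 : s ≤ 31 / 16) :
    0 ≤ ev2 tGH4 t s :=
  ev2_nonneg (k := 12) (T := ⟨60, some (61), 32⟩) (S := ⟨61, some (62), 32⟩) (P := tGH4) (by decide +kernel)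
    (by constructor <;> dsimp only <;> push_cast <;> first | trivial | linarith)
    (by constructor <;> dsimp only <;> push_cast <;> linarith)

theorem gh4_nn_box21 {t s : ℝ} (a0 : 61 / 32 ≤ t) (a1 : t ≤ 31 / 16) (c0 : 15 / 8 ≤ s) (c1 : s ≤ 61 / 32) :
    0 ≤ ev2 tGH4 t s :=
  ev2_nonneg (k := 12) (T := ⟨61, some (62), 32⟩) (S := ⟨60, some (61), 32⟩) (P := tGH4) (by decide +kernel)
    (by constructor <;> dsimp only <;> push_cast <;> first | trivial | linarith)
    (by constructor <;> dsimp only <;> push_cast <;> linarith)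

theorem gh4_nn_box22 {t s : ℝ} (a0 : 61 / 32 ≤ t) (a1 : t ≤ 123 / 64) (c0 : 61 / 32 ≤ s) (c1 : s ≤ 31 / 16) :
    0 ≤ ev2 tGH4 t s :=
  ev2_nonneg (k := 12) (T := ⟨122, some (123), 64⟩) (S := ⟨61, some (62), 32⟩) (P := tGH4) (by decide +kernel)
    (by constructor <;> dsimp only <;> push_cast <;> first | trivial | linarith)
    (by constructor <;> dsimp only <;> push_cast <;> linarith)

theorem gh4_nn_box23 {t s : ℝ} (a0 : 123 / 64 ≤ t) (a1 : t ≤ 31 / 16) (c0 : 61 / 32 ≤ s) (c1 : s ≤ 31 / 16) :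
    0 ≤ ev2 tGH4 t s :=
  ev2_nonneg (k := 12) (T := ⟨123, some (124), 64⟩) (S := ⟨61, some (62), 32⟩) (P := tGH4) (by decide +kernel)
    (by constructor <;> dsimp only <;> push_cast <;> first | trivial | linarith)
    (by constructor <;> dsimp only <;> push_cast <;> linarith)

theorem gh4_nn_box24 {t s : ℝ} (a0 : 15 / 8 ≤ t) (a1 : t ≤ 31 / 16) (c0 : 31 / 16 ≤ s) (c1 : s ≤ 2) :
    0 ≤ ev2 tGH4 t s :=
  ev2_nonneg (k := 12) (T := ⟨30, some (31), 16⟩) (S := ⟨31, some (32), 16⟩) (P := tGH4) (by decide +kernel)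
    (by constructor <;> dsimp only <;> push_cast <;> first | trivial | linarith)
    (by constructor <;> dsimp only <;> push_cast <;> linarith)

theorem gh4_nn_box25 {t s : ℝ} (a0 : 31 / 16 ≤ t) (a1 : t ≤ 2) (c0 : 15 / 8 ≤ s) (c1 : s ≤ 31 / 16) :
    0 ≤ ev2 tGH4 t s :=
  ev2_nonneg (k := 12) (T := ⟨31, some (32), 16⟩) (S := ⟨30, some (31), 16⟩) (P := tGH4) (by decide +kernel)
    (by constructor <;> dsimp only <;> push_cast <;> first | trivial | linarith)
    (by constructor <;> dsimp only <;> push_cast <;> linarith)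

theorem gh4_nn_box26 {t s : ℝ} (a0 : 31 / 16 ≤ t) (a1 : t ≤ 125 / 64) (c0 : 31 / 16 ≤ s) (c1 : s ≤ 125 / 64) :
    0 ≤ ev2 tGH4 t s :=
  ev2_nonneg (k := 12) (T := ⟨124, some (125), 64⟩) (S := ⟨124, some (125), 64⟩) (P := tGH4) (by decide +kernel)
    (by constructor <;> dsimp only <;> push_cast <;> first | trivial | linarith)
    (by constructor <;> dsimp only <;> push_cast <;> linarith)

theorem gh4_nn_box27 {t s : ℝ} (a0 : 31 / 16 ≤ t) (a1 : t ≤ 125 / 64) (c0 : 125 / 64 ≤ s) (c1 : s ≤ 63 / 32) :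
    0 ≤ ev2 tGH4 t s :=
  ev2_nonneg (k := 12) (T := ⟨124, some (125), 64⟩) (S := ⟨125, some (126), 64⟩) (P := tGH4) (by decide +kernel)
    (by constructor <;> dsimp only <;> push_cast <;> first | trivial | linarith)
    (by constructor <;> dsimp only <;> push_cast <;> linarith)

theorem gh4_nn_box28 {t s : ℝ} (a0 : 125 / 64 ≤ t) (a1 : t ≤ 63 / 32) (c0 : 31 / 16 ≤ s) (c1 : s ≤ 125 / 64) :
    0 ≤ ev2 tGH4 t s :=
  ev2_nonneg (k := 12) (T := ⟨125, some (126), 64⟩) (S := ⟨124, some (125), 64⟩) (P := tGH4) (by decide +kernel)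
    (by constructor <;> dsimp only <;> push_cast <;> first | trivial | linarith)
    (by constructor <;> dsimp only <;> push_cast <;> linarith)

theorem gh4_nn_box29 {t s : ℝ} (a0 : 125 / 64 ≤ t) (a1 : t ≤ 251 / 128) (c0 : 125 / 64 ≤ s) (c1 : s ≤ 63 / 32) :
    0 ≤ ev2 tGH4 t s :=
  ev2_nonneg (k := 12) (T := ⟨250, some (251), 128⟩) (S := ⟨125, some (126), 64⟩) (P := tGH4) (by decide +kernel)
    (by constructor <;> dsimp only <;> push_cast <;> first | trivial | linarith)
    (by constructor <;> dsimp only <;> push_cast <;> linarith)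

theorem gh4_nn_box30 {t s : ℝ} (a0 : 251 / 128 ≤ t) (a1 : t ≤ 63 / 32) (c0 : 125 / 64 ≤ s) (c1 : s ≤ 63 / 32) :
    0 ≤ ev2 tGH4 t s :=
  ev2_nonneg (k := 12) (T := ⟨251, some (252), 128⟩) (S := ⟨125, some (126), 64⟩) (P := tGH4) (by decide +kernel)
    (by constructor <;> dsimp only <;> push_cast <;> first | trivial | linarith)
    (by constructor <;> dsimp only <;> push_cast <;> linarith)

theorem gh4_nn_box31 {t s : ℝ} (a0 : 31 / 16 ≤ t) (a1 : t ≤ 63 / 32) (c0 : 63 / 32 ≤ s) (c1 : s ≤ 2) :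
    0 ≤ ev2 tGH4 t s :=
  ev2_nonneg (k := 12) (T := ⟨62, some (63), 32⟩) (S := ⟨63, some (64), 32⟩) (P := tGH4) (by decide +kernel)
    (by constructor <;> dsimp only <;> push_cast <;> first | trivial | linarith)
    (by constructor <;> dsimp only <;> push_cast <;> linarith)

theorem gh4_nn_box32 {t s : ℝ} (a0 : 63 / 32 ≤ t) (a1 : t ≤ 2) (c0 : 31 / 16 ≤ s) (c1 : s ≤ 63 / 32) :
    0 ≤ ev2 tGH4 t s :=
  ev2_nonneg (k := 12) (T := ⟨63, some (64), 32⟩) (S := ⟨62, some (63), 32⟩) (P := tGH4) (by decide +kernel)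
    (by constructor <;> dsimp only <;> push_cast <;> first | trivial | linarith)
    (by constructor <;> dsimp only <;> push_cast <;> linarith)

theorem gh4_nn_box33 {t s : ℝ} (a0 : 2 ≤ t) (c0 : 1 ≤ s) (c1 : s ≤ 2) :
    0 ≤ ev2 tGH4 t s :=
  ev2_nonneg (k := 12) (T := ⟨2, none, 1⟩) (S := ⟨1, some (2), 1⟩) (P := tGH4) (by decide +kernel)
    (by constructor <;> dsimp only <;> push_cast <;> first | trivial | linarith)
    (by constructor <;> dsimp only <;> push_cast <;> linarith)

theorem gh4_nn {t s : ℝ} (ht0 : 0 ≤ t) (hs0 : 1 ≤ s) (hs1 : s ≤ 2)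
    (hz : ¬((63 / 32 ≤ t ∧ t ≤ 65 / 32) ∧ 63 / 32 ≤ s)) :
    0 ≤ ev2 tGH4 t s := by
  rcases le_total t (2) with h0 | h0
  · rcases le_total t (1) with h1 | h1
    · exact gh4_nn_box0 (by linarith) (by linarith) (by linarith) (by linarith)
    · rcases le_total t (3 / 2) with h2 | h2
      · rcases le_total s (3 / 2) with h3 | h3
        · rcases le_total t (5 / 4) with h4 | h4
          · exact gh4_nn_box1 (by linarith) (by linarith) (by linarith) (by linarith)
          · exact gh4_nn_box2 (by linarith) (by linarith) (by linarith) (by linarith)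
        · exact gh4_nn_box3 (by linarith) (by linarith) (by linarith) (by linarith)
      · rcases le_total s (3 / 2) with h3 | h3
        · exact gh4_nn_box4 (by linarith) (by linarith) (by linarith) (by linarith)
        · rcases le_total t (7 / 4) with h4 | h4
          · rcases le_total s (7 / 4) with h5 | h5
            · rcases le_total t (13 / 8) with h6 | h6
              · rcases le_total s (13 / 8) with h7 | h7
                · exact gh4_nn_box5 (by linarith) (by linarith) (by linarith) (by linarith)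
                · exact gh4_nn_box6 (by linarith) (by linarith) (by linarith) (by linarith)
              · rcases le_total s (13 / 8) with h7 | h7
                · exact gh4_nn_box7 (by linarith) (by linarith) (by linarith) (by linarith)
                · rcases le_total t (27 / 16) with h8 | h8
                  · exact gh4_nn_box8 (by linarith) (by linarith) (by linarith) (by linarith)
                  · exact gh4_nn_box9 (by linarith) (by linarith) (by linarith) (by linarith)
            · exact gh4_nn_box10 (by linarith) (by linarith) (by linarith) (by linarith)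
          · rcases le_total s (7 / 4) with h5 | h5
            · exact gh4_nn_box11 (by linarith) (by linarith) (by linarith) (by linarith)
            · rcases le_total t (15 / 8) with h6 | h6
              · rcases le_total s (15 / 8) with h7 | h7
                · rcases le_total t (29 / 16) with h8 | h8
                  · rcases le_total s (29 / 16) with h9 | h9
                    · exact gh4_nn_box12 (by linarith) (by linarith) (by linarith) (by linarith)
                    · exact gh4_nn_box13 (by linarith) (by linarith) (by linarith) (by linarith)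
                  · rcases le_total s (29 / 16) with h9 | h9
                    · exact gh4_nn_box14 (by linarith) (by linarith) (by linarith) (by linarith)
                    · rcases le_total t (59 / 32) with h10 | h10
                      · exact gh4_nn_box15 (by linarith) (by linarith) (by linarith) (by linarith)
                      · exact gh4_nn_box16 (by linarith) (by linarith) (by linarith) (by linarith)
                · exact gh4_nn_box17 (by linarith) (by linarith) (by linarith) (by linarith)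
              · rcases le_total s (15 / 8) with h7 | h7
                · exact gh4_nn_box18 (by linarith) (by linarith) (by linarith) (by linarith)
                · rcases le_total t (31 / 16) with h8 | h8
                  · rcases le_total s (31 / 16) with h9 | h9
                    · rcases le_total t (61 / 32) with h10 | h10
                      · rcases le_total s (61 / 32) with h11 | h11
                        · exact gh4_nn_box19 (by linarith) (by linarith) (by linarith) (by linarith)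
                        · exact gh4_nn_box20 (by linarith) (by linarith) (by linarith) (by linarith)
                      · rcases le_total s (61 / 32) with h11 | h11
                        · exact gh4_nn_box21 (by linarith) (by linarith) (by linarith) (by linarith)
                        · rcases le_total t (123 / 64) with h12 | h12
                          · exact gh4_nn_box22 (by linarith) (by linarith) (by linarith) (by linarith)
                          · exact gh4_nn_box23 (by linarith) (by linarith) (by linarith) (by linarith)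
                    · exact gh4_nn_box24 (by linarith) (by linarith) (by linarith) (by linarith)
                  · rcases le_total s (31 / 16) with h9 | h9
                    · exact gh4_nn_box25 (by linarith) (by linarith) (by linarith) (by linarith)
                    · rcases le_total t (63 / 32) with h10 | h10
                      · rcases le_total s (63 / 32) with h11 | h11
                        · rcases le_total t (125 / 64) with h12 | h12
                          · rcases le_total s (125 / 64) with h13 | h13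
                            · exact gh4_nn_box26 (by linarith) (by linarith) (by linarith) (by linarith)
                            · exact gh4_nn_box27 (by linarith) (by linarith) (by linarith) (by linarith)
                          · rcases le_total s (125 / 64) with h13 | h13
                            · exact gh4_nn_box28 (by linarith) (by linarith) (by linarith) (by linarith)
                            · rcases le_total t (251 / 128) with h14 | h14
                              · exact gh4_nn_box29 (by linarith) (by linarith) (by linarith) (by linarith)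
                              · exact gh4_nn_box30 (by linarith) (by linarith) (by linarith) (by linarith)
                        · exact gh4_nn_box31 (by linarith) (by linarith) (by linarith) (by linarith)
                      · rcases le_total s (63 / 32) with h11 | h11
                        · exact gh4_nn_box32 (by linarith) (by linarith) (by linarith) (by linarith)
                        · exact absurd ⟨⟨by linarith, by linarith⟩, by linarith⟩ hz
  · exact gh4_nn_box33 (by linarith) (by linarith) (by linarith)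

theorem d4_nn {t s : ℝ} (ht0 : 63 / 32 ≤ t) (ht1 : t ≤ 65 / 32) (hs0 : 63 / 32 ≤ s) (hs1 : s ≤ 2) :
    0 ≤ ev2 tD4 t s := by
  exact ev2_nonneg (k := 10) (T := ⟨63, some (65), 32⟩) (S := ⟨63, some (64), 32⟩) (P := tD4) (by decide +kernel)
    (by constructor <;> dsimp only <;> push_cast <;> linarith)
    (by constructor <;> dsimp only <;> push_cast <;> linarith)


end Vale.Agent.P219.Eleven
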