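import Vale.Agent.P219.Eleven.Data

/-!
# P219: positivity of the kernel and the weight of the calibration in dimension eleven

Generated. Coefficient tables are by powers of `t`, then of the second variable.
-/

namespace Vale.Agent.P219.Eleven

open PosCheck

theorem wl0_nn_box0 {t s : ℝ} (a0 : 0 ≤ t) (a1 : t ≤ 1) (c0 : 0 ≤ s) (c1 : s ≤ 1) :
    0 ≤ ev2 tWL0 t s :=
  ev2_nonneg (k := 5) (T := ⟨0, some (1), 1⟩) (S := ⟨0, some (1), 1⟩) (P := tWL0) (by decide +kernel)
    (by constructor <;> dsimp only <;> push_cast <;> first | trivial | linarith)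
    (by constructor <;> dsimp only <;> push_cast <;> linarith)

theorem wl0_nn_box1 {t s : ℝ} (a0 : 1 ≤ t) (a1 : t ≤ 2) (c0 : 0 ≤ s) (c1 : s ≤ 1) :
    0 ≤ ev2 tWL0 t s :=
  ev2_nonneg (k := 5) (T := ⟨1, some (2), 1⟩) (S := ⟨0, some (1), 1⟩) (P := tWL0) (by decide +kernel)
    (by constructor <;> dsimp only <;> push_cast <;> first | trivial | linarith)
    (by constructor <;> dsimp only <;> push_cast <;> linarith)

theorem wl0_nn_box2 {t s : ℝ} (a0 : 2 ≤ t) (c0 : 0 ≤ s) (c1 : s ≤ 1) :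
    0 ≤ ev2 tWL0 t s :=
  ev2_nonneg (k := 5) (T := ⟨2, none, 1⟩) (S := ⟨0, some (1), 1⟩) (P := tWL0) (by decide +kernel)
    (by constructor <;> dsimp only <;> push_cast <;> first | trivial | linarith)
    (by constructor <;> dsimp only <;> push_cast <;> linarith)

theorem wl0_nn {t s : ℝ} (ht0 : 0 ≤ t) (hs0 : 0 ≤ s) (hs1 : s ≤ 1) :
    0 ≤ ev2 tWL0 t s := by
  rcases le_total t (2) with h0 | h0
  · rcases le_total t (1) with h1 | h1
    · exact wl0_nn_box0 (by linarith) (by linarith) (by linarith) (by linarith)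
    · exact wl0_nn_box1 (by linarith) (by linarith) (by linarith) (by linarith)
  · exact wl0_nn_box2 (by linarith) (by linarith) (by linarith)

theorem wh0_nn_box0 {t s : ℝ} (a0 : 0 ≤ t) (a1 : t ≤ 1 / 2) (c0 : 1 ≤ s) (c1 : s ≤ 2) :
    0 ≤ ev2 tWH0 t s :=
  ev2_nonneg (k := 6) (T := ⟨0, some (1), 2⟩) (S := ⟨1, some (2), 1⟩) (P := tWH0) (by decide +kernel)
    (by constructor <;> dsimp only <;> push_cast <;> first | trivial | linarith)
    (by constructor <;> dsimp only <;> push_cast <;> linarith)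

theorem wh0_nn_box1 {t s : ℝ} (a0 : 1 / 2 ≤ t) (a1 : t ≤ 1) (c0 : 1 ≤ s) (c1 : s ≤ 3 / 2) :
    0 ≤ ev2 tWH0 t s :=
  ev2_nonneg (k := 6) (T := ⟨1, some (2), 2⟩) (S := ⟨2, some (3), 2⟩) (P := tWH0) (by decide +kernel)
    (by constructor <;> dsimp only <;> push_cast <;> first | trivial | linarith)
    (by constructor <;> dsimp only <;> push_cast <;> linarith)

theorem wh0_nn_box2 {t s : ℝ} (a0 : 1 / 2 ≤ t) (a1 : t ≤ 1) (c0 : 3 / 2 ≤ s) (c1 : s ≤ 2) :
    0 ≤ ev2 tWH0 t s :=
  ev2_nonneg (k := 6) (T := ⟨1, some (2), 2⟩) (S := ⟨3, some (4), 2⟩) (P := tWH0) (by decide +kernel)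
    (by constructor <;> dsimp only <;> push_cast <;> first | trivial | linarith)
    (by constructor <;> dsimp only <;> push_cast <;> linarith)

theorem wh0_nn_box3 {t s : ℝ} (a0 : 1 ≤ t) (a1 : t ≤ 3 / 2) (c0 : 1 ≤ s) (c1 : s ≤ 3 / 2) :
    0 ≤ ev2 tWH0 t s :=
  ev2_nonneg (k := 6) (T := ⟨2, some (3), 2⟩) (S := ⟨2, some (3), 2⟩) (P := tWH0) (by decide +kernel)
    (by constructor <;> dsimp only <;> push_cast <;> first | trivial | linarith)
    (by constructor <;> dsimp only <;> push_cast <;> linarith)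

theorem wh0_nn_box4 {t s : ℝ} (a0 : 1 ≤ t) (a1 : t ≤ 9 / 8) (c0 : 3 / 2 ≤ s) (c1 : s ≤ 7 / 4) :
    0 ≤ ev2 tWH0 t s :=
  ev2_nonneg (k := 6) (T := ⟨8, some (9), 8⟩) (S := ⟨6, some (7), 4⟩) (P := tWH0) (by decide +kernel)
    (by constructor <;> dsimp only <;> push_cast <;> first | trivial | linarith)
    (by constructor <;> dsimp only <;> push_cast <;> linarith)

theorem wh0_nn_box5 {t s : ℝ} (a0 : 9 / 8 ≤ t) (a1 : t ≤ 5 / 4) (c0 : 3 / 2 ≤ s) (c1 : s ≤ 13 / 8) :
    0 ≤ ev2 tWH0 t s :=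
  ev2_nonneg (k := 6) (T := ⟨9, some (10), 8⟩) (S := ⟨12, some (13), 8⟩) (P := tWH0) (by decide +kernel)
    (by constructor <;> dsimp only <;> push_cast <;> first | trivial | linarith)
    (by constructor <;> dsimp only <;> push_cast <;> linarith)

theorem wh0_nn_box6 {t s : ℝ} (a0 : 9 / 8 ≤ t) (a1 : t ≤ 5 / 4) (c0 : 13 / 8 ≤ s) (c1 : s ≤ 7 / 4) :
    0 ≤ ev2 tWH0 t s :=
  ev2_nonneg (k := 6) (T := ⟨9, some (10), 8⟩) (S := ⟨13, some (14), 8⟩) (P := tWH0) (by decide +kernel)
    (by constructor <;> dsimp only <;> push_cast <;> first | trivial | linarith)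
    (by constructor <;> dsimp only <;> push_cast <;> linarith)

theorem wh0_nn_box7 {t s : ℝ} (a0 : 1 ≤ t) (a1 : t ≤ 5 / 4) (c0 : 7 / 4 ≤ s) (c1 : s ≤ 2) :
    0 ≤ ev2 tWH0 t s :=
  ev2_nonneg (k := 6) (T := ⟨4, some (5), 4⟩) (S := ⟨7, some (8), 4⟩) (P := tWH0) (by decide +kernel)
    (by constructor <;> dsimp only <;> push_cast <;> first | trivial | linarith)
    (by constructor <;> dsimp only <;> push_cast <;> linarith)

theorem wh0_nn_box8 {t s : ℝ} (a0 : 5 / 4 ≤ t) (a1 : t ≤ 11 / 8) (c0 : 3 / 2 ≤ s) (c1 : s ≤ 13 / 8) :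
    0 ≤ ev2 tWH0 t s :=
  ev2_nonneg (k := 6) (T := ⟨10, some (11), 8⟩) (S := ⟨12, some (13), 8⟩) (P := tWH0) (by decide +kernel)
    (by constructor <;> dsimp only <;> push_cast <;> first | trivial | linarith)
    (by constructor <;> dsimp only <;> push_cast <;> linarith)

theorem wh0_nn_box9 {t s : ℝ} (a0 : 5 / 4 ≤ t) (a1 : t ≤ 11 / 8) (c0 : 13 / 8 ≤ s) (c1 : s ≤ 7 / 4) :
    0 ≤ ev2 tWH0 t s :=
  ev2_nonneg (k := 6) (T := ⟨10, some (11), 8⟩) (S := ⟨13, some (14), 8⟩) (P := tWH0) (by decide +kernel)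
    (by constructor <;> dsimp only <;> push_cast <;> first | trivial | linarith)
    (by constructor <;> dsimp only <;> push_cast <;> linarith)

theorem wh0_nn_box10 {t s : ℝ} (a0 : 11 / 8 ≤ t) (a1 : t ≤ 3 / 2) (c0 : 3 / 2 ≤ s) (c1 : s ≤ 7 / 4) :
    0 ≤ ev2 tWH0 t s :=
  ev2_nonneg (k := 6) (T := ⟨11, some (12), 8⟩) (S := ⟨6, some (7), 4⟩) (P := tWH0) (by decide +kernel)
    (by constructor <;> dsimp only <;> push_cast <;> first | trivial | linarith)
    (by constructor <;> dsimp only <;> push_cast <;> linarith)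

theorem wh0_nn_box11 {t s : ℝ} (a0 : 5 / 4 ≤ t) (a1 : t ≤ 3 / 2) (c0 : 7 / 4 ≤ s) (c1 : s ≤ 2) :
    0 ≤ ev2 tWH0 t s :=
  ev2_nonneg (k := 6) (T := ⟨5, some (6), 4⟩) (S := ⟨7, some (8), 4⟩) (P := tWH0) (by decide +kernel)
    (by constructor <;> dsimp only <;> push_cast <;> first | trivial | linarith)
    (by constructor <;> dsimp only <;> push_cast <;> linarith)

theorem wh0_nn_box12 {t s : ℝ} (a0 : 3 / 2 ≤ t) (a1 : t ≤ 2) (c0 : 1 ≤ s) (c1 : s ≤ 3 / 2) :
    0 ≤ ev2 tWH0 t s :=
  ev2_nonneg (k := 6) (T := ⟨3, some (4), 2⟩) (S := ⟨2, some (3), 2⟩) (P := tWH0) (by decide +kernel)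
    (by constructor <;> dsimp only <;> push_cast <;> first | trivial | linarith)
    (by constructor <;> dsimp only <;> push_cast <;> linarith)

theorem wh0_nn_box13 {t s : ℝ} (a0 : 3 / 2 ≤ t) (a1 : t ≤ 7 / 4) (c0 : 3 / 2 ≤ s) (c1 : s ≤ 7 / 4) :
    0 ≤ ev2 tWH0 t s :=
  ev2_nonneg (k := 6) (T := ⟨6, some (7), 4⟩) (S := ⟨6, some (7), 4⟩) (P := tWH0) (by decide +kernel)
    (by constructor <;> dsimp only <;> push_cast <;> first | trivial | linarith)
    (by constructor <;> dsimp only <;> push_cast <;> linarith)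

theorem wh0_nn_box14 {t s : ℝ} (a0 : 3 / 2 ≤ t) (a1 : t ≤ 7 / 4) (c0 : 7 / 4 ≤ s) (c1 : s ≤ 2) :
    0 ≤ ev2 tWH0 t s :=
  ev2_nonneg (k := 6) (T := ⟨6, some (7), 4⟩) (S := ⟨7, some (8), 4⟩) (P := tWH0) (by decide +kernel)
    (by constructor <;> dsimp only <;> push_cast <;> first | trivial | linarith)
    (by constructor <;> dsimp only <;> push_cast <;> linarith)

theorem wh0_nn_box15 {t s : ℝ} (a0 : 7 / 4 ≤ t) (a1 : t ≤ 2) (c0 : 3 / 2 ≤ s) (c1 : s ≤ 7 / 4) :
    0 ≤ ev2 tWH0 t s :=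
  ev2_nonneg (k := 6) (T := ⟨7, some (8), 4⟩) (S := ⟨6, some (7), 4⟩) (P := tWH0) (by decide +kernel)
    (by constructor <;> dsimp only <;> push_cast <;> first | trivial | linarith)
    (by constructor <;> dsimp only <;> push_cast <;> linarith)

theorem wh0_nn_box16 {t s : ℝ} (a0 : 7 / 4 ≤ t) (a1 : t ≤ 2) (c0 : 7 / 4 ≤ s) (c1 : s ≤ 2) :
    0 ≤ ev2 tWH0 t s :=
  ev2_nonneg (k := 6) (T := ⟨7, some (8), 4⟩) (S := ⟨7, some (8), 4⟩) (P := tWH0) (by decide +kernel)
    (by constructor <;> dsimp only <;> push_cast <;> first | trivial | linarith)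
    (by constructor <;> dsimp only <;> push_cast <;> linarith)

theorem wh0_nn_box17 {t s : ℝ} (a0 : 2 ≤ t) (c0 : 1 ≤ s) (c1 : s ≤ 2) :
    0 ≤ ev2 tWH0 t s :=
  ev2_nonneg (k := 6) (T := ⟨2, none, 1⟩) (S := ⟨1, some (2), 1⟩) (P := tWH0) (by decide +kernel)
    (by constructor <;> dsimp only <;> push_cast <;> first | trivial | linarith)
    (by constructor <;> dsimp only <;> push_cast <;> linarith)

theorem wh0_nn {t s : ℝ} (ht0 : 0 ≤ t) (hs0 : 1 ≤ s) (hs1 : s ≤ 2) :
    0 ≤ ev2 tWH0 t s := by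
  rcases le_total t (2) with h0 | h0
  · rcases le_total t (1) with h1 | h1
    · rcases le_total t (1 / 2) with h2 | h2
      · exact wh0_nn_box0 (by linarith) (by linarith) (by linarith) (by linarith)
      · rcases le_total s (3 / 2) with h3 | h3
        · exact wh0_nn_box1 (by linarith) (by linarith) (by linarith) (by linarith)
        · exact wh0_nn_box2 (by linarith) (by linarith) (by linarith) (by linarith)
    · rcases le_total t (3 / 2) with h2 | h2
      · rcases le_total s (3 / 2) with h3 | h3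
        · exact wh0_nn_box3 (by linarith) (by linarith) (by linarith) (by linarith)
        · rcases le_total t (5 / 4) with h4 | h4
          · rcases le_total s (7 / 4) with h5 | h5
            · rcases le_total t (9 / 8) with h6 | h6
              · exact wh0_nn_box4 (by linarith) (by linarith) (by linarith) (by linarith)
              · rcases le_total s (13 / 8) with h7 | h7
                · exact wh0_nn_box5 (by linarith) (by linarith) (by linarith) (by linarith)
                · exact wh0_nn_box6 (by linarith) (by linarith) (by linarith) (by linarith)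
            · exact wh0_nn_box7 (by linarith) (by linarith) (by linarith) (by linarith)
          · rcases le_total s (7 / 4) with h5 | h5
            · rcases le_total t (11 / 8) with h6 | h6
              · rcases le_total s (13 / 8) with h7 | h7
                · exact wh0_nn_box8 (by linarith) (by linarith) (by linarith) (by linarith)
                · exact wh0_nn_box9 (by linarith) (by linarith) (by linarith) (by linarith)
              · exact wh0_nn_box10 (by linarith) (by linarith) (by linarith) (by linarith)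
            · exact wh0_nn_box11 (by linarith) (by linarith) (by linarith) (by linarith)
      · rcases le_total s (3 / 2) with h3 | h3
        · exact wh0_nn_box12 (by linarith) (by linarith) (by linarith) (by linarith)
        · rcases le_total t (7 / 4) with h4 | h4
          · rcases le_total s (7 / 4) with h5 | h5
            · exact wh0_nn_box13 (by linarith) (by linarith) (by linarith) (by linarith)
            · exact wh0_nn_box14 (by linarith) (by linarith) (by linarith) (by linarith)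
          · rcases le_total s (7 / 4) with h5 | h5
            · exact wh0_nn_box15 (by linarith) (by linarith) (by linarith) (by linarith)
            · exact wh0_nn_box16 (by linarith) (by linarith) (by linarith) (by linarith)
  · exact wh0_nn_box17 (by linarith) (by linarith) (by linarith)

theorem wl1_nn_box0 {t s : ℝ} (a0 : 0 ≤ t) (a1 : t ≤ 1) (c0 : 0 ≤ s) (c1 : s ≤ 1) :
    0 ≤ ev2 tWL1 t s :=
  ev2_nonneg (k := 7) (T := ⟨0, some (1), 1⟩) (S := ⟨0, some (1), 1⟩) (P := tWL1) (by decide +kernel)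
    (by constructor <;> dsimp only <;> push_cast <;> first | trivial | linarith)
    (by constructor <;> dsimp only <;> push_cast <;> linarith)

theorem wl1_nn_box1 {t s : ℝ} (a0 : 1 ≤ t) (a1 : t ≤ 2) (c0 : 0 ≤ s) (c1 : s ≤ 1) :
    0 ≤ ev2 tWL1 t s :=
  ev2_nonneg (k := 7) (T := ⟨1, some (2), 1⟩) (S := ⟨0, some (1), 1⟩) (P := tWL1) (by decide +kernel)
    (by constructor <;> dsimp only <;> push_cast <;> first | trivial | linarith)
    (by constructor <;> dsimp only <;> push_cast <;> linarith)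

theorem wl1_nn_box2 {t s : ℝ} (a0 : 2 ≤ t) (c0 : 0 ≤ s) (c1 : s ≤ 1) :
    0 ≤ ev2 tWL1 t s :=
  ev2_nonneg (k := 7) (T := ⟨2, none, 1⟩) (S := ⟨0, some (1), 1⟩) (P := tWL1) (by decide +kernel)
    (by constructor <;> dsimp only <;> push_cast <;> first | trivial | linarith)
    (by constructor <;> dsimp only <;> push_cast <;> linarith)

theorem wl1_nn {t s : ℝ} (ht0 : 0 ≤ t) (hs0 : 0 ≤ s) (hs1 : s ≤ 1) :
    0 ≤ ev2 tWL1 t s := by
  rcases le_total t (2) with h0 | h0
  · rcases le_total t (1) with h1 | h1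
    · exact wl1_nn_box0 (by linarith) (by linarith) (by linarith) (by linarith)
    · exact wl1_nn_box1 (by linarith) (by linarith) (by linarith) (by linarith)
  · exact wl1_nn_box2 (by linarith) (by linarith) (by linarith)

theorem wh1_nn_box0 {t s : ℝ} (a0 : 0 ≤ t) (a1 : t ≤ 1 / 2) (c0 : 1 ≤ s) (c1 : s ≤ 2) :
    0 ≤ ev2 tWH1 t s :=
  ev2_nonneg (k := 7) (T := ⟨0, some (1), 2⟩) (S := ⟨1, some (2), 1⟩) (P := tWH1) (by decide +kernel)
    (by constructor <;> dsimp only <;> push_cast <;> first | trivial | linarith)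
    (by constructor <;> dsimp only <;> push_cast <;> linarith)

theorem wh1_nn_box1 {t s : ℝ} (a0 : 1 / 2 ≤ t) (a1 : t ≤ 1) (c0 : 1 ≤ s) (c1 : s ≤ 3 / 2) :
    0 ≤ ev2 tWH1 t s :=
  ev2_nonneg (k := 7) (T := ⟨1, some (2), 2⟩) (S := ⟨2, some (3), 2⟩) (P := tWH1) (by decide +kernel)
    (by constructor <;> dsimp only <;> push_cast <;> first | trivial | linarith)
    (by constructor <;> dsimp only <;> push_cast <;> linarith)

theorem wh1_nn_box2 {t s : ℝ} (a0 : 1 / 2 ≤ t) (a1 : t ≤ 1) (c0 : 3 / 2 ≤ s) (c1 : s ≤ 2) :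
    0 ≤ ev2 tWH1 t s :=
  ev2_nonneg (k := 7) (T := ⟨1, some (2), 2⟩) (S := ⟨3, some (4), 2⟩) (P := tWH1) (by decide +kernel)
    (by constructor <;> dsimp only <;> push_cast <;> first | trivial | linarith)
    (by constructor <;> dsimp only <;> push_cast <;> linarith)

theorem wh1_nn_box3 {t s : ℝ} (a0 : 1 ≤ t) (a1 : t ≤ 3 / 2) (c0 : 1 ≤ s) (c1 : s ≤ 3 / 2) :
    0 ≤ ev2 tWH1 t s :=
  ev2_nonneg (k := 7) (T := ⟨2, some (3), 2⟩) (S := ⟨2, some (3), 2⟩) (P := tWH1) (by decide +kernel)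
    (by constructor <;> dsimp only <;> push_cast <;> first | trivial | linarith)
    (by constructor <;> dsimp only <;> push_cast <;> linarith)

theorem wh1_nn_box4 {t s : ℝ} (a0 : 1 ≤ t) (a1 : t ≤ 5 / 4) (c0 : 3 / 2 ≤ s) (c1 : s ≤ 7 / 4) :
    0 ≤ ev2 tWH1 t s :=
  ev2_nonneg (k := 7) (T := ⟨4, some (5), 4⟩) (S := ⟨6, some (7), 4⟩) (P := tWH1) (by decide +kernel)
    (by constructor <;> dsimp only <;> push_cast <;> first | trivial | linarith)
    (by constructor <;> dsimp only <;> push_cast <;> linarith)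

theorem wh1_nn_box5 {t s : ℝ} (a0 : 1 ≤ t) (a1 : t ≤ 5 / 4) (c0 : 7 / 4 ≤ s) (c1 : s ≤ 2) :
    0 ≤ ev2 tWH1 t s :=
  ev2_nonneg (k := 7) (T := ⟨4, some (5), 4⟩) (S := ⟨7, some (8), 4⟩) (P := tWH1) (by decide +kernel)
    (by constructor <;> dsimp only <;> push_cast <;> first | trivial | linarith)
    (by constructor <;> dsimp only <;> push_cast <;> linarith)

theorem wh1_nn_box6 {t s : ℝ} (a0 : 5 / 4 ≤ t) (a1 : t ≤ 3 / 2) (c0 : 3 / 2 ≤ s) (c1 : s ≤ 7 / 4) :
    0 ≤ ev2 tWH1 t s :=
  ev2_nonneg (k := 7) (T := ⟨5, some (6), 4⟩) (S := ⟨6, some (7), 4⟩) (P := tWH1) (by decide +kernel)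
    (by constructor <;> dsimp only <;> push_cast <;> first | trivial | linarith)
    (by constructor <;> dsimp only <;> push_cast <;> linarith)

theorem wh1_nn_box7 {t s : ℝ} (a0 : 5 / 4 ≤ t) (a1 : t ≤ 3 / 2) (c0 : 7 / 4 ≤ s) (c1 : s ≤ 2) :
    0 ≤ ev2 tWH1 t s :=
  ev2_nonneg (k := 7) (T := ⟨5, some (6), 4⟩) (S := ⟨7, some (8), 4⟩) (P := tWH1) (by decide +kernel)
    (by constructor <;> dsimp only <;> push_cast <;> first | trivial | linarith)
    (by constructor <;> dsimp only <;> push_cast <;> linarith)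

theorem wh1_nn_box8 {t s : ℝ} (a0 : 3 / 2 ≤ t) (a1 : t ≤ 2) (c0 : 1 ≤ s) (c1 : s ≤ 3 / 2) :
    0 ≤ ev2 tWH1 t s :=
  ev2_nonneg (k := 7) (T := ⟨3, some (4), 2⟩) (S := ⟨2, some (3), 2⟩) (P := tWH1) (by decide +kernel)
    (by constructor <;> dsimp only <;> push_cast <;> first | trivial | linarith)
    (by constructor <;> dsimp only <;> push_cast <;> linarith)

theorem wh1_nn_box9 {t s : ℝ} (a0 : 3 / 2 ≤ t) (a1 : t ≤ 7 / 4) (c0 : 3 / 2 ≤ s) (c1 : s ≤ 7 / 4) :
    0 ≤ ev2 tWH1 t s :=
  ev2_nonneg (k := 7) (T := ⟨6, some (7), 4⟩) (S := ⟨6, some (7), 4⟩) (P := tWH1) (by decide +kernel)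
    (by constructor <;> dsimp only <;> push_cast <;> first | trivial | linarith)
    (by constructor <;> dsimp only <;> push_cast <;> linarith)

theorem wh1_nn_box10 {t s : ℝ} (a0 : 3 / 2 ≤ t) (a1 : t ≤ 7 / 4) (c0 : 7 / 4 ≤ s) (c1 : s ≤ 2) :
    0 ≤ ev2 tWH1 t s :=
  ev2_nonneg (k := 7) (T := ⟨6, some (7), 4⟩) (S := ⟨7, some (8), 4⟩) (P := tWH1) (by decide +kernel)
    (by constructor <;> dsimp only <;> push_cast <;> first | trivial | linarith)
    (by constructor <;> dsimp only <;> push_cast <;> linarith)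

theorem wh1_nn_box11 {t s : ℝ} (a0 : 7 / 4 ≤ t) (a1 : t ≤ 2) (c0 : 3 / 2 ≤ s) (c1 : s ≤ 7 / 4) :
    0 ≤ ev2 tWH1 t s :=
  ev2_nonneg (k := 7) (T := ⟨7, some (8), 4⟩) (S := ⟨6, some (7), 4⟩) (P := tWH1) (by decide +kernel)
    (by constructor <;> dsimp only <;> push_cast <;> first | trivial | linarith)
    (by constructor <;> dsimp only <;> push_cast <;> linarith)

theorem wh1_nn_box12 {t s : ℝ} (a0 : 7 / 4 ≤ t) (a1 : t ≤ 2) (c0 : 7 / 4 ≤ s) (c1 : s ≤ 2) :
    0 ≤ ev2 tWH1 t s :=
  ev2_nonneg (k := 7) (T := ⟨7, some (8), 4⟩) (S := ⟨7, some (8), 4⟩) (P := tWH1) (by decide +kernel)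
    (by constructor <;> dsimp only <;> push_cast <;> first | trivial | linarith)
    (by constructor <;> dsimp only <;> push_cast <;> linarith)

theorem wh1_nn_box13 {t s : ℝ} (a0 : 2 ≤ t) (c0 : 1 ≤ s) (c1 : s ≤ 2) :
    0 ≤ ev2 tWH1 t s :=
  ev2_nonneg (k := 7) (T := ⟨2, none, 1⟩) (S := ⟨1, some (2), 1⟩) (P := tWH1) (by decide +kernel)
    (by constructor <;> dsimp only <;> push_cast <;> first | trivial | linarith)
    (by constructor <;> dsimp only <;> push_cast <;> linarith)

theorem wh1_nn {t s : ℝ} (ht0 : 0 ≤ t) (hs0 : 1 ≤ s) (hs1 : s ≤ 2) :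
    0 ≤ ev2 tWH1 t s := by
  rcases le_total t (2) with h0 | h0
  · rcases le_total t (1) with h1 | h1
    · rcases le_total t (1 / 2) with h2 | h2
      · exact wh1_nn_box0 (by linarith) (by linarith) (by linarith) (by linarith)
      · rcases le_total s (3 / 2) with h3 | h3
        · exact wh1_nn_box1 (by linarith) (by linarith) (by linarith) (by linarith)
        · exact wh1_nn_box2 (by linarith) (by linarith) (by linarith) (by linarith)
    · rcases le_total t (3 / 2) with h2 | h2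
      · rcases le_total s (3 / 2) with h3 | h3
        · exact wh1_nn_box3 (by linarith) (by linarith) (by linarith) (by linarith)
        · rcases le_total t (5 / 4) with h4 | h4
          · rcases le_total s (7 / 4) with h5 | h5
            · exact wh1_nn_box4 (by linarith) (by linarith) (by linarith) (by linarith)
            · exact wh1_nn_box5 (by linarith) (by linarith) (by linarith) (by linarith)
          · rcases le_total s (7 / 4) with h5 | h5
            · exact wh1_nn_box6 (by linarith) (by linarith) (by linarith) (by linarith)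
            · exact wh1_nn_box7 (by linarith) (by linarith) (by linarith) (by linarith)
      · rcases le_total s (3 / 2) with h3 | h3
        · exact wh1_nn_box8 (by linarith) (by linarith) (by linarith) (by linarith)
        · rcases le_total t (7 / 4) with h4 | h4
          · rcases le_total s (7 / 4) with h5 | h5
            · exact wh1_nn_box9 (by linarith) (by linarith) (by linarith) (by linarith)
            · exact wh1_nn_box10 (by linarith) (by linarith) (by linarith) (by linarith)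
          · rcases le_total s (7 / 4) with h5 | h5
            · exact wh1_nn_box11 (by linarith) (by linarith) (by linarith) (by linarith)
            · exact wh1_nn_box12 (by linarith) (by linarith) (by linarith) (by linarith)
  · exact wh1_nn_box13 (by linarith) (by linarith) (by linarith)

theorem wl2_nn_box0 {t s : ℝ} (a0 : 0 ≤ t) (a1 : t ≤ 1) (c0 : 0 ≤ s) (c1 : s ≤ 1) :
    0 ≤ ev2 tWL2 t s :=
  ev2_nonneg (k := 7) (T := ⟨0, some (1), 1⟩) (S := ⟨0, some (1), 1⟩) (P := tWL2) (by decide +kernel)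
    (by constructor <;> dsimp only <;> push_cast <;> first | trivial | linarith)
    (by constructor <;> dsimp only <;> push_cast <;> linarith)

theorem wl2_nn_box1 {t s : ℝ} (a0 : 1 ≤ t) (a1 : t ≤ 2) (c0 : 0 ≤ s) (c1 : s ≤ 1) :
    0 ≤ ev2 tWL2 t s :=
  ev2_nonneg (k := 7) (T := ⟨1, some (2), 1⟩) (S := ⟨0, some (1), 1⟩) (P := tWL2) (by decide +kernel)
    (by constructor <;> dsimp only <;> push_cast <;> first | trivial | linarith)
    (by constructor <;> dsimp only <;> push_cast <;> linarith)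

theorem wl2_nn_box2 {t s : ℝ} (a0 : 2 ≤ t) (c0 : 0 ≤ s) (c1 : s ≤ 1) :
    0 ≤ ev2 tWL2 t s :=
  ev2_nonneg (k := 7) (T := ⟨2, none, 1⟩) (S := ⟨0, some (1), 1⟩) (P := tWL2) (by decide +kernel)
    (by constructor <;> dsimp only <;> push_cast <;> first | trivial | linarith)
    (by constructor <;> dsimp only <;> push_cast <;> linarith)

theorem wl2_nn {t s : ℝ} (ht0 : 0 ≤ t) (hs0 : 0 ≤ s) (hs1 : s ≤ 1) :
    0 ≤ ev2 tWL2 t s := by
  rcases le_total t (2) with h0 | h0
  · rcases le_total t (1) with h1 | h1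
    · exact wl2_nn_box0 (by linarith) (by linarith) (by linarith) (by linarith)
    · exact wl2_nn_box1 (by linarith) (by linarith) (by linarith) (by linarith)
  · exact wl2_nn_box2 (by linarith) (by linarith) (by linarith)

theorem wh2_nn_box0 {t s : ℝ} (a0 : 0 ≤ t) (a1 : t ≤ 1 / 2) (c0 : 1 ≤ s) (c1 : s ≤ 2) :
    0 ≤ ev2 tWH2 t s :=
  ev2_nonneg (k := 7) (T := ⟨0, some (1), 2⟩) (S := ⟨1, some (2), 1⟩) (P := tWH2) (by decide +kernel)
    (by constructor <;> dsimp only <;> push_cast <;> first | trivial | linarith)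
    (by constructor <;> dsimp only <;> push_cast <;> linarith)

theorem wh2_nn_box1 {t s : ℝ} (a0 : 1 / 2 ≤ t) (a1 : t ≤ 1) (c0 : 1 ≤ s) (c1 : s ≤ 3 / 2) :
    0 ≤ ev2 tWH2 t s :=
  ev2_nonneg (k := 7) (T := ⟨1, some (2), 2⟩) (S := ⟨2, some (3), 2⟩) (P := tWH2) (by decide +kernel)
    (by constructor <;> dsimp only <;> push_cast <;> first | trivial | linarith)
    (by constructor <;> dsimp only <;> push_cast <;> linarith)

theorem wh2_nn_box2 {t s : ℝ} (a0 : 1 / 2 ≤ t) (a1 : t ≤ 3 / 4) (c0 : 3 / 2 ≤ s) (c1 : s ≤ 2) :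
    0 ≤ ev2 tWH2 t s :=
  ev2_nonneg (k := 7) (T := ⟨2, some (3), 4⟩) (S := ⟨3, some (4), 2⟩) (P := tWH2) (by decide +kernel)
    (by constructor <;> dsimp only <;> push_cast <;> first | trivial | linarith)
    (by constructor <;> dsimp only <;> push_cast <;> linarith)

theorem wh2_nn_box3 {t s : ℝ} (a0 : 3 / 4 ≤ t) (a1 : t ≤ 1) (c0 : 3 / 2 ≤ s) (c1 : s ≤ 2) :
    0 ≤ ev2 tWH2 t s :=
  ev2_nonneg (k := 7) (T := ⟨3, some (4), 4⟩) (S := ⟨3, some (4), 2⟩) (P := tWH2) (by decide +kernel)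
    (by constructor <;> dsimp only <;> push_cast <;> first | trivial | linarith)
    (by constructor <;> dsimp only <;> push_cast <;> linarith)

theorem wh2_nn_box4 {t s : ℝ} (a0 : 1 ≤ t) (a1 : t ≤ 3 / 2) (c0 : 1 ≤ s) (c1 : s ≤ 3 / 2) :
    0 ≤ ev2 tWH2 t s :=
  ev2_nonneg (k := 7) (T := ⟨2, some (3), 2⟩) (S := ⟨2, some (3), 2⟩) (P := tWH2) (by decide +kernel)
    (by constructor <;> dsimp only <;> push_cast <;> first | trivial | linarith)
    (by constructor <;> dsimp only <;> push_cast <;> linarith)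

theorem wh2_nn_box5 {t s : ℝ} (a0 : 1 ≤ t) (a1 : t ≤ 5 / 4) (c0 : 3 / 2 ≤ s) (c1 : s ≤ 2) :
    0 ≤ ev2 tWH2 t s :=
  ev2_nonneg (k := 7) (T := ⟨4, some (5), 4⟩) (S := ⟨3, some (4), 2⟩) (P := tWH2) (by decide +kernel)
    (by constructor <;> dsimp only <;> push_cast <;> first | trivial | linarith)
    (by constructor <;> dsimp only <;> push_cast <;> linarith)

theorem wh2_nn_box6 {t s : ℝ} (a0 : 5 / 4 ≤ t) (a1 : t ≤ 3 / 2) (c0 : 3 / 2 ≤ s) (c1 : s ≤ 7 / 4) :
    0 ≤ ev2 tWH2 t s :=
  ev2_nonneg (k := 7) (T := ⟨5, some (6), 4⟩) (S := ⟨6, some (7), 4⟩) (P := tWH2) (by decide +kernel)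
    (by constructor <;> dsimp only <;> push_cast <;> first | trivial | linarith)
    (by constructor <;> dsimp only <;> push_cast <;> linarith)

theorem wh2_nn_box7 {t s : ℝ} (a0 : 5 / 4 ≤ t) (a1 : t ≤ 3 / 2) (c0 : 7 / 4 ≤ s) (c1 : s ≤ 2) :
    0 ≤ ev2 tWH2 t s :=
  ev2_nonneg (k := 7) (T := ⟨5, some (6), 4⟩) (S := ⟨7, some (8), 4⟩) (P := tWH2) (by decide +kernel)
    (by constructor <;> dsimp only <;> push_cast <;> first | trivial | linarith)
    (by constructor <;> dsimp only <;> push_cast <;> linarith)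

theorem wh2_nn_box8 {t s : ℝ} (a0 : 3 / 2 ≤ t) (a1 : t ≤ 2) (c0 : 1 ≤ s) (c1 : s ≤ 3 / 2) :
    0 ≤ ev2 tWH2 t s :=
  ev2_nonneg (k := 7) (T := ⟨3, some (4), 2⟩) (S := ⟨2, some (3), 2⟩) (P := tWH2) (by decide +kernel)
    (by constructor <;> dsimp only <;> push_cast <;> first | trivial | linarith)
    (by constructor <;> dsimp only <;> push_cast <;> linarith)

theorem wh2_nn_box9 {t s : ℝ} (a0 : 3 / 2 ≤ t) (a1 : t ≤ 7 / 4) (c0 : 3 / 2 ≤ s) (c1 : s ≤ 7 / 4) :
    0 ≤ ev2 tWH2 t s :=
  ev2_nonneg (k := 7) (T := ⟨6, some (7), 4⟩) (S := ⟨6, some (7), 4⟩) (P := tWH2) (by decide +kernel)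
    (by constructor <;> dsimp only <;> push_cast <;> first | trivial | linarith)
    (by constructor <;> dsimp only <;> push_cast <;> linarith)

theorem wh2_nn_box10 {t s : ℝ} (a0 : 3 / 2 ≤ t) (a1 : t ≤ 7 / 4) (c0 : 7 / 4 ≤ s) (c1 : s ≤ 2) :
    0 ≤ ev2 tWH2 t s :=
  ev2_nonneg (k := 7) (T := ⟨6, some (7), 4⟩) (S := ⟨7, some (8), 4⟩) (P := tWH2) (by decide +kernel)
    (by constructor <;> dsimp only <;> push_cast <;> first | trivial | linarith)
    (by constructor <;> dsimp only <;> push_cast <;> linarith)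

theorem wh2_nn_box11 {t s : ℝ} (a0 : 7 / 4 ≤ t) (a1 : t ≤ 2) (c0 : 3 / 2 ≤ s) (c1 : s ≤ 7 / 4) :
    0 ≤ ev2 tWH2 t s :=
  ev2_nonneg (k := 7) (T := ⟨7, some (8), 4⟩) (S := ⟨6, some (7), 4⟩) (P := tWH2) (by decide +kernel)
    (by constructor <;> dsimp only <;> push_cast <;> first | trivial | linarith)
    (by constructor <;> dsimp only <;> push_cast <;> linarith)

theorem wh2_nn_box12 {t s : ℝ} (a0 : 7 / 4 ≤ t) (a1 : t ≤ 2) (c0 : 7 / 4 ≤ s) (c1 : s ≤ 2) :
    0 ≤ ev2 tWH2 t s :=
  ev2_nonneg (k := 7) (T := ⟨7, some (8), 4⟩) (S := ⟨7, some (8), 4⟩) (P := tWH2) (by decide +kernel)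
    (by constructor <;> dsimp only <;> push_cast <;> first | trivial | linarith)
    (by constructor <;> dsimp only <;> push_cast <;> linarith)

theorem wh2_nn_box13 {t s : ℝ} (a0 : 2 ≤ t) (c0 : 1 ≤ s) (c1 : s ≤ 2) :
    0 ≤ ev2 tWH2 t s :=
  ev2_nonneg (k := 7) (T := ⟨2, none, 1⟩) (S := ⟨1, some (2), 1⟩) (P := tWH2) (by decide +kernel)
    (by constructor <;> dsimp only <;> push_cast <;> first | trivial | linarith)
    (by constructor <;> dsimp only <;> push_cast <;> linarith)

theorem wh2_nn {t s : ℝ} (ht0 : 0 ≤ t) (hs0 : 1 ≤ s) (hs1 : s ≤ 2) :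
    0 ≤ ev2 tWH2 t s := by
  rcases le_total t (2) with h0 | h0
  · rcases le_total t (1) with h1 | h1
    · rcases le_total t (1 / 2) with h2 | h2
      · exact wh2_nn_box0 (by linarith) (by linarith) (by linarith) (by linarith)
      · rcases le_total s (3 / 2) with h3 | h3
        · exact wh2_nn_box1 (by linarith) (by linarith) (by linarith) (by linarith)
        · rcases le_total t (3 / 4) with h4 | h4
          · exact wh2_nn_box2 (by linarith) (by linarith) (by linarith) (by linarith)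
          · exact wh2_nn_box3 (by linarith) (by linarith) (by linarith) (by linarith)
    · rcases le_total t (3 / 2) with h2 | h2
      · rcases le_total s (3 / 2) with h3 | h3
        · exact wh2_nn_box4 (by linarith) (by linarith) (by linarith) (by linarith)
        · rcases le_total t (5 / 4) with h4 | h4
          · exact wh2_nn_box5 (by linarith) (by linarith) (by linarith) (by linarith)
          · rcases le_total s (7 / 4) with h5 | h5
            · exact wh2_nn_box6 (by linarith) (by linarith) (by linarith) (by linarith)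
            · exact wh2_nn_box7 (by linarith) (by linarith) (by linarith) (by linarith)
      · rcases le_total s (3 / 2) with h3 | h3
        · exact wh2_nn_box8 (by linarith) (by linarith) (by linarith) (by linarith)
        · rcases le_total t (7 / 4) with h4 | h4
          · rcases le_total s (7 / 4) with h5 | h5
            · exact wh2_nn_box9 (by linarith) (by linarith) (by linarith) (by linarith)
            · exact wh2_nn_box10 (by linarith) (by linarith) (by linarith) (by linarith)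
          · rcases le_total s (7 / 4) with h5 | h5
            · exact wh2_nn_box11 (by linarith) (by linarith) (by linarith) (by linarith)
            · exact wh2_nn_box12 (by linarith) (by linarith) (by linarith) (by linarith)
  · exact wh2_nn_box13 (by linarith) (by linarith) (by linarith)

theorem wl3_nn_box0 {t s : ℝ} (a0 : 0 ≤ t) (a1 : t ≤ 1) (c0 : 0 ≤ s) (c1 : s ≤ 1) :
    0 ≤ ev2 tWL3 t s :=
  ev2_nonneg (k := 7) (T := ⟨0, some (1), 1⟩) (S := ⟨0, some (1), 1⟩) (P := tWL3) (by decide +kernel)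
    (by constructor <;> dsimp only <;> push_cast <;> first | trivial | linarith)
    (by constructor <;> dsimp only <;> push_cast <;> linarith)

theorem wl3_nn_box1 {t s : ℝ} (a0 : 1 ≤ t) (a1 : t ≤ 2) (c0 : 0 ≤ s) (c1 : s ≤ 1) :
    0 ≤ ev2 tWL3 t s :=
  ev2_nonneg (k := 7) (T := ⟨1, some (2), 1⟩) (S := ⟨0, some (1), 1⟩) (P := tWL3) (by decide +kernel)
    (by constructor <;> dsimp only <;> push_cast <;> first | trivial | linarith)
    (by constructor <;> dsimp only <;> push_cast <;> linarith)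

theorem wl3_nn_box2 {t s : ℝ} (a0 : 2 ≤ t) (c0 : 0 ≤ s) (c1 : s ≤ 1) :
    0 ≤ ev2 tWL3 t s :=
  ev2_nonneg (k := 7) (T := ⟨2, none, 1⟩) (S := ⟨0, some (1), 1⟩) (P := tWL3) (by decide +kernel)
    (by constructor <;> dsimp only <;> push_cast <;> first | trivial | linarith)
    (by constructor <;> dsimp only <;> push_cast <;> linarith)

theorem wl3_nn {t s : ℝ} (ht0 : 0 ≤ t) (hs0 : 0 ≤ s) (hs1 : s ≤ 1) :
    0 ≤ ev2 tWL3 t s := by
  rcases le_total t (2) with h0 | h0
  · rcases le_total t (1) with h1 | h1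
    · exact wl3_nn_box0 (by linarith) (by linarith) (by linarith) (by linarith)
    · exact wl3_nn_box1 (by linarith) (by linarith) (by linarith) (by linarith)
  · exact wl3_nn_box2 (by linarith) (by linarith) (by linarith)

theorem wh3_nn_box0 {t s : ℝ} (a0 : 0 ≤ t) (a1 : t ≤ 1 / 2) (c0 : 1 ≤ s) (c1 : s ≤ 2) :
    0 ≤ ev2 tWH3 t s :=
  ev2_nonneg (k := 7) (T := ⟨0, some (1), 2⟩) (S := ⟨1, some (2), 1⟩) (P := tWH3) (by decide +kernel)
    (by constructor <;> dsimp only <;> push_cast <;> first | trivial | linarith)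
    (by constructor <;> dsimp only <;> push_cast <;> linarith)

theorem wh3_nn_box1 {t s : ℝ} (a0 : 1 / 2 ≤ t) (a1 : t ≤ 1) (c0 : 1 ≤ s) (c1 : s ≤ 3 / 2) :
    0 ≤ ev2 tWH3 t s :=
  ev2_nonneg (k := 7) (T := ⟨1, some (2), 2⟩) (S := ⟨2, some (3), 2⟩) (P := tWH3) (by decide +kernel)
    (by constructor <;> dsimp only <;> push_cast <;> first | trivial | linarith)
    (by constructor <;> dsimp only <;> push_cast <;> linarith)

theorem wh3_nn_box2 {t s : ℝ} (a0 : 1 / 2 ≤ t) (a1 : t ≤ 3 / 4) (c0 : 3 / 2 ≤ s) (c1 : s ≤ 2) :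
    0 ≤ ev2 tWH3 t s :=
  ev2_nonneg (k := 7) (T := ⟨2, some (3), 4⟩) (S := ⟨3, some (4), 2⟩) (P := tWH3) (by decide +kernel)
    (by constructor <;> dsimp only <;> push_cast <;> first | trivial | linarith)
    (by constructor <;> dsimp only <;> push_cast <;> linarith)

theorem wh3_nn_box3 {t s : ℝ} (a0 : 3 / 4 ≤ t) (a1 : t ≤ 7 / 8) (c0 : 3 / 2 ≤ s) (c1 : s ≤ 7 / 4) :
    0 ≤ ev2 tWH3 t s :=
  ev2_nonneg (k := 7) (T := ⟨6, some (7), 8⟩) (S := ⟨6, some (7), 4⟩) (P := tWH3) (by decide +kernel)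
    (by constructor <;> dsimp only <;> push_cast <;> first | trivial | linarith)
    (by constructor <;> dsimp only <;> push_cast <;> linarith)

theorem wh3_nn_box4 {t s : ℝ} (a0 : 7 / 8 ≤ t) (a1 : t ≤ 1) (c0 : 3 / 2 ≤ s) (c1 : s ≤ 7 / 4) :
    0 ≤ ev2 tWH3 t s :=
  ev2_nonneg (k := 7) (T := ⟨7, some (8), 8⟩) (S := ⟨6, some (7), 4⟩) (P := tWH3) (by decide +kernel)
    (by constructor <;> dsimp only <;> push_cast <;> first | trivial | linarith)
    (by constructor <;> dsimp only <;> push_cast <;> linarith)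

theorem wh3_nn_box5 {t s : ℝ} (a0 : 3 / 4 ≤ t) (a1 : t ≤ 1) (c0 : 7 / 4 ≤ s) (c1 : s ≤ 2) :
    0 ≤ ev2 tWH3 t s :=
  ev2_nonneg (k := 7) (T := ⟨3, some (4), 4⟩) (S := ⟨7, some (8), 4⟩) (P := tWH3) (by decide +kernel)
    (by constructor <;> dsimp only <;> push_cast <;> first | trivial | linarith)
    (by constructor <;> dsimp only <;> push_cast <;> linarith)

theorem wh3_nn_box6 {t s : ℝ} (a0 : 1 ≤ t) (a1 : t ≤ 3 / 2) (c0 : 1 ≤ s) (c1 : s ≤ 3 / 2) :
    0 ≤ ev2 tWH3 t s :=
  ev2_nonneg (k := 7) (T := ⟨2, some (3), 2⟩) (S := ⟨2, some (3), 2⟩) (P := tWH3) (by decide +kernel)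
    (by constructor <;> dsimp only <;> push_cast <;> first | trivial | linarith)
    (by constructor <;> dsimp only <;> push_cast <;> linarith)

theorem wh3_nn_box7 {t s : ℝ} (a0 : 1 ≤ t) (a1 : t ≤ 5 / 4) (c0 : 3 / 2 ≤ s) (c1 : s ≤ 7 / 4) :
    0 ≤ ev2 tWH3 t s :=
  ev2_nonneg (k := 7) (T := ⟨4, some (5), 4⟩) (S := ⟨6, some (7), 4⟩) (P := tWH3) (by decide +kernel)
    (by constructor <;> dsimp only <;> push_cast <;> first | trivial | linarith)
    (by constructor <;> dsimp only <;> push_cast <;> linarith)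

theorem wh3_nn_box8 {t s : ℝ} (a0 : 1 ≤ t) (a1 : t ≤ 5 / 4) (c0 : 7 / 4 ≤ s) (c1 : s ≤ 2) :
    0 ≤ ev2 tWH3 t s :=
  ev2_nonneg (k := 7) (T := ⟨4, some (5), 4⟩) (S := ⟨7, some (8), 4⟩) (P := tWH3) (by decide +kernel)
    (by constructor <;> dsimp only <;> push_cast <;> first | trivial | linarith)
    (by constructor <;> dsimp only <;> push_cast <;> linarith)

theorem wh3_nn_box9 {t s : ℝ} (a0 : 5 / 4 ≤ t) (a1 : t ≤ 3 / 2) (c0 : 3 / 2 ≤ s) (c1 : s ≤ 7 / 4) :
    0 ≤ ev2 tWH3 t s :=
  ev2_nonneg (k := 7) (T := ⟨5, some (6), 4⟩) (S := ⟨6, some (7), 4⟩) (P := tWH3) (by decide +kernel)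
    (by constructor <;> dsimp only <;> push_cast <;> first | trivial | linarith)
    (by constructor <;> dsimp only <;> push_cast <;> linarith)

theorem wh3_nn_box10 {t s : ℝ} (a0 : 5 / 4 ≤ t) (a1 : t ≤ 3 / 2) (c0 : 7 / 4 ≤ s) (c1 : s ≤ 2) :
    0 ≤ ev2 tWH3 t s :=
  ev2_nonneg (k := 7) (T := ⟨5, some (6), 4⟩) (S := ⟨7, some (8), 4⟩) (P := tWH3) (by decide +kernel)
    (by constructor <;> dsimp only <;> push_cast <;> first | trivial | linarith)
    (by constructor <;> dsimp only <;> push_cast <;> linarith)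

theorem wh3_nn_box11 {t s : ℝ} (a0 : 3 / 2 ≤ t) (a1 : t ≤ 2) (c0 : 1 ≤ s) (c1 : s ≤ 3 / 2) :
    0 ≤ ev2 tWH3 t s :=
  ev2_nonneg (k := 7) (T := ⟨3, some (4), 2⟩) (S := ⟨2, some (3), 2⟩) (P := tWH3) (by decide +kernel)
    (by constructor <;> dsimp only <;> push_cast <;> first | trivial | linarith)
    (by constructor <;> dsimp only <;> push_cast <;> linarith)

theorem wh3_nn_box12 {t s : ℝ} (a0 : 3 / 2 ≤ t) (a1 : t ≤ 7 / 4) (c0 : 3 / 2 ≤ s) (c1 : s ≤ 7 / 4) :
    0 ≤ ev2 tWH3 t s :=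
  ev2_nonneg (k := 7) (T := ⟨6, some (7), 4⟩) (S := ⟨6, some (7), 4⟩) (P := tWH3) (by decide +kernel)
    (by constructor <;> dsimp only <;> push_cast <;> first | trivial | linarith)
    (by constructor <;> dsimp only <;> push_cast <;> linarith)

theorem wh3_nn_box13 {t s : ℝ} (a0 : 3 / 2 ≤ t) (a1 : t ≤ 7 / 4) (c0 : 7 / 4 ≤ s) (c1 : s ≤ 2) :
    0 ≤ ev2 tWH3 t s :=
  ev2_nonneg (k := 7) (T := ⟨6, some (7), 4⟩) (S := ⟨7, some (8), 4⟩) (P := tWH3) (by decide +kernel)
    (by constructor <;> dsimp only <;> push_cast <;> first | trivial | linarith)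
    (by constructor <;> dsimp only <;> push_cast <;> linarith)

theorem wh3_nn_box14 {t s : ℝ} (a0 : 7 / 4 ≤ t) (a1 : t ≤ 2) (c0 : 3 / 2 ≤ s) (c1 : s ≤ 7 / 4) :
    0 ≤ ev2 tWH3 t s :=
  ev2_nonneg (k := 7) (T := ⟨7, some (8), 4⟩) (S := ⟨6, some (7), 4⟩) (P := tWH3) (by decide +kernel)
    (by constructor <;> dsimp only <;> push_cast <;> first | trivial | linarith)
    (by constructor <;> dsimp only <;> push_cast <;> linarith)

theorem wh3_nn_box15 {t s : ℝ} (a0 : 7 / 4 ≤ t) (a1 : t ≤ 2) (c0 : 7 / 4 ≤ s) (c1 : s ≤ 2) :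
    0 ≤ ev2 tWH3 t s :=
  ev2_nonneg (k := 7) (T := ⟨7, some (8), 4⟩) (S := ⟨7, some (8), 4⟩) (P := tWH3) (by decide +kernel)
    (by constructor <;> dsimp only <;> push_cast <;> first | trivial | linarith)
    (by constructor <;> dsimp only <;> push_cast <;> linarith)

theorem wh3_nn_box16 {t s : ℝ} (a0 : 2 ≤ t) (c0 : 1 ≤ s) (c1 : s ≤ 2) :
    0 ≤ ev2 tWH3 t s :=
  ev2_nonneg (k := 7) (T := ⟨2, none, 1⟩) (S := ⟨1, some (2), 1⟩) (P := tWH3) (by decide +kernel)
    (by constructor <;> dsimp only <;> push_cast <;> first | trivial | linarith)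
    (by constructor <;> dsimp only <;> push_cast <;> linarith)

theorem wh3_nn {t s : ℝ} (ht0 : 0 ≤ t) (hs0 : 1 ≤ s) (hs1 : s ≤ 2) :
    0 ≤ ev2 tWH3 t s := by
  rcases le_total t (2) with h0 | h0
  · rcases le_total t (1) with h1 | h1
    · rcases le_total t (1 / 2) with h2 | h2
      · exact wh3_nn_box0 (by linarith) (by linarith) (by linarith) (by linarith)
      · rcases le_total s (3 / 2) with h3 | h3
        · exact wh3_nn_box1 (by linarith) (by linarith) (by linarith) (by linarith)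
        · rcases le_total t (3 / 4) with h4 | h4
          · exact wh3_nn_box2 (by linarith) (by linarith) (by linarith) (by linarith)
          · rcases le_total s (7 / 4) with h5 | h5
            · rcases le_total t (7 / 8) with h6 | h6
              · exact wh3_nn_box3 (by linarith) (by linarith) (by linarith) (by linarith)
              · exact wh3_nn_box4 (by linarith) (by linarith) (by linarith) (by linarith)
            · exact wh3_nn_box5 (by linarith) (by linarith) (by linarith) (by linarith)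
    · rcases le_total t (3 / 2) with h2 | h2
      · rcases le_total s (3 / 2) with h3 | h3
        · exact wh3_nn_box6 (by linarith) (by linarith) (by linarith) (by linarith)
        · rcases le_total t (5 / 4) with h4 | h4
          · rcases le_total s (7 / 4) with h5 | h5
            · exact wh3_nn_box7 (by linarith) (by linarith) (by linarith) (by linarith)
            · exact wh3_nn_box8 (by linarith) (by linarith) (by linarith) (by linarith)
          · rcases le_total s (7 / 4) with h5 | h5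
            · exact wh3_nn_box9 (by linarith) (by linarith) (by linarith) (by linarith)
            · exact wh3_nn_box10 (by linarith) (by linarith) (by linarith) (by linarith)
      · rcases le_total s (3 / 2) with h3 | h3
        · exact wh3_nn_box11 (by linarith) (by linarith) (by linarith) (by linarith)
        · rcases le_total t (7 / 4) with h4 | h4
          · rcases le_total s (7 / 4) with h5 | h5
            · exact wh3_nn_box12 (by linarith) (by linarith) (by linarith) (by linarith)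
            · exact wh3_nn_box13 (by linarith) (by linarith) (by linarith) (by linarith)
          · rcases le_total s (7 / 4) with h5 | h5
            · exact wh3_nn_box14 (by linarith) (by linarith) (by linarith) (by linarith)
            · exact wh3_nn_box15 (by linarith) (by linarith) (by linarith) (by linarith)
  · exact wh3_nn_box16 (by linarith) (by linarith) (by linarith)

theorem n_nn_box0 {t s : ℝ} (a0 : 0 ≤ t) (a1 : t ≤ 1 / 2) (c0 : 0 ≤ s) (c1 : s ≤ 1) :
    0 ≤ ev2 tN t s :=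
  ev2_nonneg (k := 5) (T := ⟨0, some (1), 2⟩) (S := ⟨0, some (1), 1⟩) (P := tN) (by decide +kernel)
    (by constructor <;> dsimp only <;> push_cast <;> first | trivial | linarith)
    (by constructor <;> dsimp only <;> push_cast <;> linarith)

theorem n_nn_box1 {t s : ℝ} (a0 : 1 / 2 ≤ t) (a1 : t ≤ 1) (c0 : 0 ≤ s) (c1 : s ≤ 1) :
    0 ≤ ev2 tN t s :=
  ev2_nonneg (k := 5) (T := ⟨1, some (2), 2⟩) (S := ⟨0, some (1), 1⟩) (P := tN) (by decide +kernel)
    (by constructor <;> dsimp only <;> push_cast <;> first | trivial | linarith)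
    (by constructor <;> dsimp only <;> push_cast <;> linarith)

theorem n_nn_box2 {t s : ℝ} (a0 : 1 ≤ t) (a1 : t ≤ 2) (c0 : 0 ≤ s) (c1 : s ≤ 1) :
    0 ≤ ev2 tN t s :=
  ev2_nonneg (k := 5) (T := ⟨1, some (2), 1⟩) (S := ⟨0, some (1), 1⟩) (P := tN) (by decide +kernel)
    (by constructor <;> dsimp only <;> push_cast <;> first | trivial | linarith)
    (by constructor <;> dsimp only <;> push_cast <;> linarith)

theorem n_nn_box3 {t s : ℝ} (a0 : 2 ≤ t) (c0 : 0 ≤ s) (c1 : s ≤ 1) :
    0 ≤ ev2 tN t s :=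
  ev2_nonneg (k := 5) (T := ⟨2, none, 1⟩) (S := ⟨0, some (1), 1⟩) (P := tN) (by decide +kernel)
    (by constructor <;> dsimp only <;> push_cast <;> first | trivial | linarith)
    (by constructor <;> dsimp only <;> push_cast <;> linarith)

theorem n_nn {t s : ℝ} (ht0 : 0 ≤ t) (hs0 : 0 ≤ s) (hs1 : s ≤ 1) :
    0 ≤ ev2 tN t s := by
  rcases le_total t (2) with h0 | h0
  · rcases le_total t (1) with h1 | h1
    · rcases le_total t (1 / 2) with h2 | h2
      · exact n_nn_box0 (by linarith) (by linarith) (by linarith) (by linarith)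
      · exact n_nn_box1 (by linarith) (by linarith) (by linarith) (by linarith)
    · exact n_nn_box2 (by linarith) (by linarith) (by linarith) (by linarith)
  · exact n_nn_box3 (by linarith) (by linarith) (by linarith)

theorem nu_nn_box0 {t s : ℝ} (a0 : 0 ≤ t) (a1 : t ≤ 1 / 4) (c0 : 0 ≤ s) (c1 : s ≤ 1 / 4) :
    0 ≤ ev2 tNu t s :=
  ev2_nonneg (k := 4) (T := ⟨0, some (1), 4⟩) (S := ⟨0, some (1), 4⟩) (P := tNu) (by decide +kernel)
    (by constructor <;> dsimp only <;> push_cast <;> first | trivial | linarith)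
    (by constructor <;> dsimp only <;> push_cast <;> linarith)

theorem nu_nn_box1 {t s : ℝ} (a0 : 0 ≤ t) (a1 : t ≤ 1 / 4) (c0 : 1 / 4 ≤ s) (c1 : s ≤ 1 / 2) :
    0 ≤ ev2 tNu t s :=
  ev2_nonneg (k := 4) (T := ⟨0, some (1), 4⟩) (S := ⟨1, some (2), 4⟩) (P := tNu) (by decide +kernel)
    (by constructor <;> dsimp only <;> push_cast <;> first | trivial | linarith)
    (by constructor <;> dsimp only <;> push_cast <;> linarith)

theorem nu_nn_box2 {t s : ℝ} (a0 : 1 / 4 ≤ t) (a1 : t ≤ 1 / 2) (c0 : 0 ≤ s) (c1 : s ≤ 1 / 2) :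
    0 ≤ ev2 tNu t s :=
  ev2_nonneg (k := 4) (T := ⟨1, some (2), 4⟩) (S := ⟨0, some (1), 2⟩) (P := tNu) (by decide +kernel)
    (by constructor <;> dsimp only <;> push_cast <;> first | trivial | linarith)
    (by constructor <;> dsimp only <;> push_cast <;> linarith)

theorem nu_nn_box3 {t s : ℝ} (a0 : 0 ≤ t) (a1 : t ≤ 1 / 4) (c0 : 1 / 2 ≤ s) (c1 : s ≤ 3 / 4) :
    0 ≤ ev2 tNu t s :=
  ev2_nonneg (k := 4) (T := ⟨0, some (1), 4⟩) (S := ⟨2, some (3), 4⟩) (P := tNu) (by decide +kernel)
    (by constructor <;> dsimp only <;> push_cast <;> first | trivial | linarith)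
    (by constructor <;> dsimp only <;> push_cast <;> linarith)

theorem nu_nn_box4 {t s : ℝ} (a0 : 0 ≤ t) (a1 : t ≤ 1 / 4) (c0 : 3 / 4 ≤ s) (c1 : s ≤ 1) :
    0 ≤ ev2 tNu t s :=
  ev2_nonneg (k := 4) (T := ⟨0, some (1), 4⟩) (S := ⟨3, some (4), 4⟩) (P := tNu) (by decide +kernel)
    (by constructor <;> dsimp only <;> push_cast <;> first | trivial | linarith)
    (by constructor <;> dsimp only <;> push_cast <;> linarith)

theorem nu_nn_box5 {t s : ℝ} (a0 : 1 / 4 ≤ t) (a1 : t ≤ 1 / 2) (c0 : 1 / 2 ≤ s) (c1 : s ≤ 3 / 4) :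
    0 ≤ ev2 tNu t s :=
  ev2_nonneg (k := 4) (T := ⟨1, some (2), 4⟩) (S := ⟨2, some (3), 4⟩) (P := tNu) (by decide +kernel)
    (by constructor <;> dsimp only <;> push_cast <;> first | trivial | linarith)
    (by constructor <;> dsimp only <;> push_cast <;> linarith)

theorem nu_nn_box6 {t s : ℝ} (a0 : 1 / 4 ≤ t) (a1 : t ≤ 3 / 8) (c0 : 3 / 4 ≤ s) (c1 : s ≤ 1) :
    0 ≤ ev2 tNu t s :=
  ev2_nonneg (k := 4) (T := ⟨2, some (3), 8⟩) (S := ⟨3, some (4), 4⟩) (P := tNu) (by decide +kernel)
    (by constructor <;> dsimp only <;> push_cast <;> first | trivial | linarith)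
    (by constructor <;> dsimp only <;> push_cast <;> linarith)

theorem nu_nn_box7 {t s : ℝ} (a0 : 3 / 8 ≤ t) (a1 : t ≤ 1 / 2) (c0 : 3 / 4 ≤ s) (c1 : s ≤ 1) :
    0 ≤ ev2 tNu t s :=
  ev2_nonneg (k := 4) (T := ⟨3, some (4), 8⟩) (S := ⟨3, some (4), 4⟩) (P := tNu) (by decide +kernel)
    (by constructor <;> dsimp only <;> push_cast <;> first | trivial | linarith)
    (by constructor <;> dsimp only <;> push_cast <;> linarith)

theorem nu_nn_box8 {t s : ℝ} (a0 : 1 / 2 ≤ t) (a1 : t ≤ 1) (c0 : 0 ≤ s) (c1 : s ≤ 1 / 2) :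
    0 ≤ ev2 tNu t s :=
  ev2_nonneg (k := 4) (T := ⟨1, some (2), 2⟩) (S := ⟨0, some (1), 2⟩) (P := tNu) (by decide +kernel)
    (by constructor <;> dsimp only <;> push_cast <;> first | trivial | linarith)
    (by constructor <;> dsimp only <;> push_cast <;> linarith)

theorem nu_nn_box9 {t s : ℝ} (a0 : 1 / 2 ≤ t) (a1 : t ≤ 1) (c0 : 1 / 2 ≤ s) (c1 : s ≤ 1) :
    0 ≤ ev2 tNu t s :=
  ev2_nonneg (k := 4) (T := ⟨1, some (2), 2⟩) (S := ⟨1, some (2), 2⟩) (P := tNu) (by decide +kernel)
    (by constructor <;> dsimp only <;> push_cast <;> first | trivial | linarith)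
    (by constructor <;> dsimp only <;> push_cast <;> linarith)

theorem nu_nn_box10 {t s : ℝ} (a0 : 1 ≤ t) (a1 : t ≤ 5 / 4) (c0 : 0 ≤ s) (c1 : s ≤ 1 / 4) :
    0 ≤ ev2 tNu t s :=
  ev2_nonneg (k := 4) (T := ⟨4, some (5), 4⟩) (S := ⟨0, some (1), 4⟩) (P := tNu) (by decide +kernel)
    (by constructor <;> dsimp only <;> push_cast <;> first | trivial | linarith)
    (by constructor <;> dsimp only <;> push_cast <;> linarith)

theorem nu_nn_box11 {t s : ℝ} (a0 : 1 ≤ t) (a1 : t ≤ 5 / 4) (c0 : 1 / 4 ≤ s) (c1 : s ≤ 1 / 2) :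
    0 ≤ ev2 tNu t s :=
  ev2_nonneg (k := 4) (T := ⟨4, some (5), 4⟩) (S := ⟨1, some (2), 4⟩) (P := tNu) (by decide +kernel)
    (by constructor <;> dsimp only <;> push_cast <;> first | trivial | linarith)
    (by constructor <;> dsimp only <;> push_cast <;> linarith)

theorem nu_nn_box12 {t s : ℝ} (a0 : 5 / 4 ≤ t) (a1 : t ≤ 11 / 8) (c0 : 0 ≤ s) (c1 : s ≤ 1 / 8) :
    0 ≤ ev2 tNu t s :=
  ev2_nonneg (k := 4) (T := ⟨10, some (11), 8⟩) (S := ⟨0, some (1), 8⟩) (P := tNu) (by decide +kernel)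
    (by constructor <;> dsimp only <;> push_cast <;> first | trivial | linarith)
    (by constructor <;> dsimp only <;> push_cast <;> linarith)

theorem nu_nn_box13 {t s : ℝ} (a0 : 5 / 4 ≤ t) (a1 : t ≤ 11 / 8) (c0 : 1 / 8 ≤ s) (c1 : s ≤ 1 / 4) :
    0 ≤ ev2 tNu t s :=
  ev2_nonneg (k := 4) (T := ⟨10, some (11), 8⟩) (S := ⟨1, some (2), 8⟩) (P := tNu) (by decide +kernel)
    (by constructor <;> dsimp only <;> push_cast <;> first | trivial | linarith)
    (by constructor <;> dsimp only <;> push_cast <;> linarith)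

theorem nu_nn_box14 {t s : ℝ} (a0 : 11 / 8 ≤ t) (a1 : t ≤ 3 / 2) (c0 : 0 ≤ s) (c1 : s ≤ 1 / 4) :
    0 ≤ ev2 tNu t s :=
  ev2_nonneg (k := 4) (T := ⟨11, some (12), 8⟩) (S := ⟨0, some (1), 4⟩) (P := tNu) (by decide +kernel)
    (by constructor <;> dsimp only <;> push_cast <;> first | trivial | linarith)
    (by constructor <;> dsimp only <;> push_cast <;> linarith)

theorem nu_nn_box15 {t s : ℝ} (a0 : 5 / 4 ≤ t) (a1 : t ≤ 11 / 8) (c0 : 1 / 4 ≤ s) (c1 : s ≤ 1 / 2) :
    0 ≤ ev2 tNu t s :=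
  ev2_nonneg (k := 4) (T := ⟨10, some (11), 8⟩) (S := ⟨1, some (2), 4⟩) (P := tNu) (by decide +kernel)
    (by constructor <;> dsimp only <;> push_cast <;> first | trivial | linarith)
    (by constructor <;> dsimp only <;> push_cast <;> linarith)

theorem nu_nn_box16 {t s : ℝ} (a0 : 11 / 8 ≤ t) (a1 : t ≤ 3 / 2) (c0 : 1 / 4 ≤ s) (c1 : s ≤ 3 / 8) :
    0 ≤ ev2 tNu t s :=
  ev2_nonneg (k := 4) (T := ⟨11, some (12), 8⟩) (S := ⟨2, some (3), 8⟩) (P := tNu) (by decide +kernel)
    (by constructor <;> dsimp only <;> push_cast <;> first | trivial | linarith)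
    (by constructor <;> dsimp only <;> push_cast <;> linarith)

theorem nu_nn_box17 {t s : ℝ} (a0 : 11 / 8 ≤ t) (a1 : t ≤ 3 / 2) (c0 : 3 / 8 ≤ s) (c1 : s ≤ 1 / 2) :
    0 ≤ ev2 tNu t s :=
  ev2_nonneg (k := 4) (T := ⟨11, some (12), 8⟩) (S := ⟨3, some (4), 8⟩) (P := tNu) (by decide +kernel)
    (by constructor <;> dsimp only <;> push_cast <;> first | trivial | linarith)
    (by constructor <;> dsimp only <;> push_cast <;> linarith)

theorem nu_nn_box18 {t s : ℝ} (a0 : 1 ≤ t) (a1 : t ≤ 3 / 2) (c0 : 1 / 2 ≤ s) (c1 : s ≤ 1) :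
    0 ≤ ev2 tNu t s :=
  ev2_nonneg (k := 4) (T := ⟨2, some (3), 2⟩) (S := ⟨1, some (2), 2⟩) (P := tNu) (by decide +kernel)
    (by constructor <;> dsimp only <;> push_cast <;> first | trivial | linarith)
    (by constructor <;> dsimp only <;> push_cast <;> linarith)

theorem nu_nn_box19 {t s : ℝ} (a0 : 3 / 2 ≤ t) (a1 : t ≤ 7 / 4) (c0 : 0 ≤ s) (c1 : s ≤ 1 / 4) :
    0 ≤ ev2 tNu t s :=
  ev2_nonneg (k := 4) (T := ⟨6, some (7), 4⟩) (S := ⟨0, some (1), 4⟩) (P := tNu) (by decide +kernel)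
    (by constructor <;> dsimp only <;> push_cast <;> first | trivial | linarith)
    (by constructor <;> dsimp only <;> push_cast <;> linarith)

theorem nu_nn_box20 {t s : ℝ} (a0 : 3 / 2 ≤ t) (a1 : t ≤ 13 / 8) (c0 : 1 / 4 ≤ s) (c1 : s ≤ 3 / 8) :
    0 ≤ ev2 tNu t s :=
  ev2_nonneg (k := 4) (T := ⟨12, some (13), 8⟩) (S := ⟨2, some (3), 8⟩) (P := tNu) (by decide +kernel)
    (by constructor <;> dsimp only <;> push_cast <;> first | trivial | linarith)
    (by constructor <;> dsimp only <;> push_cast <;> linarith)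

theorem nu_nn_box21 {t s : ℝ} (a0 : 3 / 2 ≤ t) (a1 : t ≤ 13 / 8) (c0 : 3 / 8 ≤ s) (c1 : s ≤ 1 / 2) :
    0 ≤ ev2 tNu t s :=
  ev2_nonneg (k := 4) (T := ⟨12, some (13), 8⟩) (S := ⟨3, some (4), 8⟩) (P := tNu) (by decide +kernel)
    (by constructor <;> dsimp only <;> push_cast <;> first | trivial | linarith)
    (by constructor <;> dsimp only <;> push_cast <;> linarith)

theorem nu_nn_box22 {t s : ℝ} (a0 : 13 / 8 ≤ t) (a1 : t ≤ 7 / 4) (c0 : 1 / 4 ≤ s) (c1 : s ≤ 3 / 8) :
    0 ≤ ev2 tNu t s :=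
  ev2_nonneg (k := 4) (T := ⟨13, some (14), 8⟩) (S := ⟨2, some (3), 8⟩) (P := tNu) (by decide +kernel)
    (by constructor <;> dsimp only <;> push_cast <;> first | trivial | linarith)
    (by constructor <;> dsimp only <;> push_cast <;> linarith)

theorem nu_nn_box23 {t s : ℝ} (a0 : 13 / 8 ≤ t) (a1 : t ≤ 7 / 4) (c0 : 3 / 8 ≤ s) (c1 : s ≤ 1 / 2) :
    0 ≤ ev2 tNu t s :=
  ev2_nonneg (k := 4) (T := ⟨13, some (14), 8⟩) (S := ⟨3, some (4), 8⟩) (P := tNu) (by decide +kernel)
    (by constructor <;> dsimp only <;> push_cast <;> first | trivial | linarith)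
    (by constructor <;> dsimp only <;> push_cast <;> linarith)

theorem nu_nn_box24 {t s : ℝ} (a0 : 7 / 4 ≤ t) (a1 : t ≤ 2) (c0 : 0 ≤ s) (c1 : s ≤ 1 / 4) :
    0 ≤ ev2 tNu t s :=
  ev2_nonneg (k := 4) (T := ⟨7, some (8), 4⟩) (S := ⟨0, some (1), 4⟩) (P := tNu) (by decide +kernel)
    (by constructor <;> dsimp only <;> push_cast <;> first | trivial | linarith)
    (by constructor <;> dsimp only <;> push_cast <;> linarith)

theorem nu_nn_box25 {t s : ℝ} (a0 : 7 / 4 ≤ t) (a1 : t ≤ 2) (c0 : 1 / 4 ≤ s) (c1 : s ≤ 1 / 2) :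
    0 ≤ ev2 tNu t s :=
  ev2_nonneg (k := 4) (T := ⟨7, some (8), 4⟩) (S := ⟨1, some (2), 4⟩) (P := tNu) (by decide +kernel)
    (by constructor <;> dsimp only <;> push_cast <;> first | trivial | linarith)
    (by constructor <;> dsimp only <;> push_cast <;> linarith)

theorem nu_nn_box26 {t s : ℝ} (a0 : 3 / 2 ≤ t) (a1 : t ≤ 2) (c0 : 1 / 2 ≤ s) (c1 : s ≤ 1) :
    0 ≤ ev2 tNu t s :=
  ev2_nonneg (k := 4) (T := ⟨3, some (4), 2⟩) (S := ⟨1, some (2), 2⟩) (P := tNu) (by decide +kernel)
    (by constructor <;> dsimp only <;> push_cast <;> first | trivial | linarith)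
    (by constructor <;> dsimp only <;> push_cast <;> linarith)

theorem nu_nn_box27 {t s : ℝ} (a0 : 2 ≤ t) (a1 : t ≤ 11 / 4) (c0 : 0 ≤ s) (c1 : s ≤ 1 / 2) :
    0 ≤ ev2 tNu t s :=
  ev2_nonneg (k := 4) (T := ⟨8, some (11), 4⟩) (S := ⟨0, some (1), 2⟩) (P := tNu) (by decide +kernel)
    (by constructor <;> dsimp only <;> push_cast <;> first | trivial | linarith)
    (by constructor <;> dsimp only <;> push_cast <;> linarith)

theorem nu_nn_box28 {t s : ℝ} (a0 : 2 ≤ t) (a1 : t ≤ 19 / 8) (c0 : 1 / 2 ≤ s) (c1 : s ≤ 1) :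
    0 ≤ ev2 tNu t s :=
  ev2_nonneg (k := 4) (T := ⟨16, some (19), 8⟩) (S := ⟨1, some (2), 2⟩) (P := tNu) (by decide +kernel)
    (by constructor <;> dsimp only <;> push_cast <;> first | trivial | linarith)
    (by constructor <;> dsimp only <;> push_cast <;> linarith)

theorem nu_nn_box29 {t s : ℝ} (a0 : 19 / 8 ≤ t) (a1 : t ≤ 11 / 4) (c0 : 1 / 2 ≤ s) (c1 : s ≤ 3 / 4) :
    0 ≤ ev2 tNu t s :=
  ev2_nonneg (k := 4) (T := ⟨19, some (22), 8⟩) (S := ⟨2, some (3), 4⟩) (P := tNu) (by decide +kernel)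
    (by constructor <;> dsimp only <;> push_cast <;> first | trivial | linarith)
    (by constructor <;> dsimp only <;> push_cast <;> linarith)

theorem nu_nn_box30 {t s : ℝ} (a0 : 19 / 8 ≤ t) (a1 : t ≤ 11 / 4) (c0 : 3 / 4 ≤ s) (c1 : s ≤ 1) :
    0 ≤ ev2 tNu t s :=
  ev2_nonneg (k := 4) (T := ⟨19, some (22), 8⟩) (S := ⟨3, some (4), 4⟩) (P := tNu) (by decide +kernel)
    (by constructor <;> dsimp only <;> push_cast <;> first | trivial | linarith)
    (by constructor <;> dsimp only <;> push_cast <;> linarith)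

theorem nu_nn_box31 {t s : ℝ} (a0 : 11 / 4 ≤ t) (a1 : t ≤ 7 / 2) (c0 : 0 ≤ s) (c1 : s ≤ 1 / 2) :
    0 ≤ ev2 tNu t s :=
  ev2_nonneg (k := 4) (T := ⟨11, some (14), 4⟩) (S := ⟨0, some (1), 2⟩) (P := tNu) (by decide +kernel)
    (by constructor <;> dsimp only <;> push_cast <;> first | trivial | linarith)
    (by constructor <;> dsimp only <;> push_cast <;> linarith)

theorem nu_nn_box32 {t s : ℝ} (a0 : 11 / 4 ≤ t) (a1 : t ≤ 7 / 2) (c0 : 1 / 2 ≤ s) (c1 : s ≤ 1) :
    0 ≤ ev2 tNu t s :=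
  ev2_nonneg (k := 4) (T := ⟨11, some (14), 4⟩) (S := ⟨1, some (2), 2⟩) (P := tNu) (by decide +kernel)
    (by constructor <;> dsimp only <;> push_cast <;> first | trivial | linarith)
    (by constructor <;> dsimp only <;> push_cast <;> linarith)

theorem nu_nn_box33 {t s : ℝ} (a0 : 7 / 2 ≤ t) (a1 : t ≤ 17 / 4) (c0 : 0 ≤ s) (c1 : s ≤ 1) :
    0 ≤ ev2 tNu t s :=
  ev2_nonneg (k := 4) (T := ⟨14, some (17), 4⟩) (S := ⟨0, some (1), 1⟩) (P := tNu) (by decide +kernel)
    (by constructor <;> dsimp only <;> push_cast <;> first | trivial | linarith)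
    (by constructor <;> dsimp only <;> push_cast <;> linarith)

theorem nu_nn_box34 {t s : ℝ} (a0 : 17 / 4 ≤ t) (a1 : t ≤ 5) (c0 : 0 ≤ s) (c1 : s ≤ 1) :
    0 ≤ ev2 tNu t s :=
  ev2_nonneg (k := 4) (T := ⟨17, some (20), 4⟩) (S := ⟨0, some (1), 1⟩) (P := tNu) (by decide +kernel)
    (by constructor <;> dsimp only <;> push_cast <;> first | trivial | linarith)
    (by constructor <;> dsimp only <;> push_cast <;> linarith)

theorem nu_nn_box35 {t s : ℝ} (a0 : 5 ≤ t) (a1 : t ≤ 8) (c0 : 0 ≤ s) (c1 : s ≤ 1) :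
    0 ≤ ev2 tNu t s :=
  ev2_nonneg (k := 4) (T := ⟨5, some (8), 1⟩) (S := ⟨0, some (1), 1⟩) (P := tNu) (by decide +kernel)
    (by constructor <;> dsimp only <;> push_cast <;> first | trivial | linarith)
    (by constructor <;> dsimp only <;> push_cast <;> linarith)

theorem nu_nn_box36 {t s : ℝ} (a0 : 8 ≤ t) (c0 : 0 ≤ s) (c1 : s ≤ 1) :
    0 ≤ ev2 tNu t s :=
  ev2_nonneg (k := 4) (T := ⟨8, none, 1⟩) (S := ⟨0, some (1), 1⟩) (P := tNu) (by decide +kernel)
    (by constructor <;> dsimp only <;> push_cast <;> first | trivial | linarith)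
    (by constructor <;> dsimp only <;> push_cast <;> linarith)

theorem nu_nn {t s : ℝ} (ht0 : 0 ≤ t) (hs0 : 0 ≤ s) (hs1 : s ≤ 1) :
    0 ≤ ev2 tNu t s := by
  rcases le_total t (2) with h0 | h0
  · rcases le_total t (1) with h1 | h1
    · rcases le_total t (1 / 2) with h2 | h2
      · rcases le_total s (1 / 2) with h3 | h3
        · rcases le_total t (1 / 4) with h4 | h4
          · rcases le_total s (1 / 4) with h5 | h5
            · exact nu_nn_box0 (by linarith) (by linarith) (by linarith) (by linarith)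
            · exact nu_nn_box1 (by linarith) (by linarith) (by linarith) (by linarith)
          · exact nu_nn_box2 (by linarith) (by linarith) (by linarith) (by linarith)
        · rcases le_total t (1 / 4) with h4 | h4
          · rcases le_total s (3 / 4) with h5 | h5
            · exact nu_nn_box3 (by linarith) (by linarith) (by linarith) (by linarith)
            · exact nu_nn_box4 (by linarith) (by linarith) (by linarith) (by linarith)
          · rcases le_total s (3 / 4) with h5 | h5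
            · exact nu_nn_box5 (by linarith) (by linarith) (by linarith) (by linarith)
            · rcases le_total t (3 / 8) with h6 | h6
              · exact nu_nn_box6 (by linarith) (by linarith) (by linarith) (by linarith)
              · exact nu_nn_box7 (by linarith) (by linarith) (by linarith) (by linarith)
      · rcases le_total s (1 / 2) with h3 | h3
        · exact nu_nn_box8 (by linarith) (by linarith) (by linarith) (by linarith)
        · exact nu_nn_box9 (by linarith) (by linarith) (by linarith) (by linarith)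
    · rcases le_total t (3 / 2) with h2 | h2
      · rcases le_total s (1 / 2) with h3 | h3
        · rcases le_total t (5 / 4) with h4 | h4
          · rcases le_total s (1 / 4) with h5 | h5
            · exact nu_nn_box10 (by linarith) (by linarith) (by linarith) (by linarith)
            · exact nu_nn_box11 (by linarith) (by linarith) (by linarith) (by linarith)
          · rcases le_total s (1 / 4) with h5 | h5
            · rcases le_total t (11 / 8) with h6 | h6
              · rcases le_total s (1 / 8) with h7 | h7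
                · exact nu_nn_box12 (by linarith) (by linarith) (by linarith) (by linarith)
                · exact nu_nn_box13 (by linarith) (by linarith) (by linarith) (by linarith)
              · exact nu_nn_box14 (by linarith) (by linarith) (by linarith) (by linarith)
            · rcases le_total t (11 / 8) with h6 | h6
              · exact nu_nn_box15 (by linarith) (by linarith) (by linarith) (by linarith)
              · rcases le_total s (3 / 8) with h7 | h7
                · exact nu_nn_box16 (by linarith) (by linarith) (by linarith) (by linarith)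
                · exact nu_nn_box17 (by linarith) (by linarith) (by linarith) (by linarith)
        · exact nu_nn_box18 (by linarith) (by linarith) (by linarith) (by linarith)
      · rcases le_total s (1 / 2) with h3 | h3
        · rcases le_total t (7 / 4) with h4 | h4
          · rcases le_total s (1 / 4) with h5 | h5
            · exact nu_nn_box19 (by linarith) (by linarith) (by linarith) (by linarith)
            · rcases le_total t (13 / 8) with h6 | h6
              · rcases le_total s (3 / 8) with h7 | h7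
                · exact nu_nn_box20 (by linarith) (by linarith) (by linarith) (by linarith)
                · exact nu_nn_box21 (by linarith) (by linarith) (by linarith) (by linarith)
              · rcases le_total s (3 / 8) with h7 | h7
                · exact nu_nn_box22 (by linarith) (by linarith) (by linarith) (by linarith)
                · exact nu_nn_box23 (by linarith) (by linarith) (by linarith) (by linarith)
          · rcases le_total s (1 / 4) with h5 | h5
            · exact nu_nn_box24 (by linarith) (by linarith) (by linarith) (by linarith)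
            · exact nu_nn_box25 (by linarith) (by linarith) (by linarith) (by linarith)
        · exact nu_nn_box26 (by linarith) (by linarith) (by linarith) (by linarith)
  · rcases le_total t (8) with h1 | h1
    · rcases le_total t (5) with h2 | h2
      · rcases le_total t (7 / 2) with h3 | h3
        · rcases le_total t (11 / 4) with h4 | h4
          · rcases le_total s (1 / 2) with h5 | h5
            · exact nu_nn_box27 (by linarith) (by linarith) (by linarith) (by linarith)
            · rcases le_total t (19 / 8) with h6 | h6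
              · exact nu_nn_box28 (by linarith) (by linarith) (by linarith) (by linarith)
              · rcases le_total s (3 / 4) with h7 | h7
                · exact nu_nn_box29 (by linarith) (by linarith) (by linarith) (by linarith)
                · exact nu_nn_box30 (by linarith) (by linarith) (by linarith) (by linarith)
          · rcases le_total s (1 / 2) with h5 | h5
            · exact nu_nn_box31 (by linarith) (by linarith) (by linarith) (by linarith)
            · exact nu_nn_box32 (by linarith) (by linarith) (by linarith) (by linarith)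
        · rcases le_total t (17 / 4) with h4 | h4
          · exact nu_nn_box33 (by linarith) (by linarith) (by linarith) (by linarith)
          · exact nu_nn_box34 (by linarith) (by linarith) (by linarith) (by linarith)
      · exact nu_nn_box35 (by linarith) (by linarith) (by linarith) (by linarith)
    · exact nu_nn_box36 (by linarith) (by linarith) (by linarith)

theorem phi_nn {c : ℝ} (h0 : 0 ≤ c) (h1 : c ≤ 1) : 0 ≤ ev tPhi c := by
  exact ev_nonneg (S := ⟨0, some (1), 1⟩) (by decide +kernel)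
    (by constructor <;> dsimp only <;> push_cast <;> linarith)


end Vale.Agent.P219.Eleven
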