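import Vale.Agent.P219.Eleven.Data

/-!
# P219: identities between the coefficient tables in dimension eleven

Generated: the Bernstein coefficients in `p` between the edge values, and their charts at the zeros.
-/

namespace Vale.Agent.P219.Eleven

open PosCheck

theorem wl0_eq (t s : ℝ) :
    ev2 tWL0 t s = 1 * (ev2 tW0 t s * (1)) := by
  simp only [tWL0, tW0, tW1, tW2, tW3, ev2, ev]
  push_cast
  ring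

theorem wh0_eq (t s : ℝ) :
    ev2 tWH0 t s = 1 * (ev2 tW0 t s * (1)
      + ev2 tW1 t s * ((s - 1))
      + ev2 tW2 t s * ((s - 1) ^ 2)
      + ev2 tW3 t s * ((s - 1) ^ 3)) := by
  simp only [tWH0, tW0, tW1, tW2, tW3, ev2, ev]
  push_cast
  ring

theorem wl1_eq (t s : ℝ) :
    ev2 tWL1 t s = 4 * (ev2 tW0 t s * (3)
      + ev2 tW1 t s * ((s ^ 2 / 4))) := by
  simp only [tWL1, tW0, tW1, tW2, tW3, ev2, ev]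
  push_cast
  ring

theorem wh1_eq (t s : ℝ) :
    ev2 tWH1 t s = 4 * (ev2 tW0 t s * (3)
      + ev2 tW1 t s * (2 * (s - 1) + (s ^ 2 / 4))
      + ev2 tW2 t s * ((s - 1) ^ 2 + 2 * (s - 1) * (s ^ 2 / 4))
      + ev2 tW3 t s * (3 * (s - 1) ^ 2 * (s ^ 2 / 4))) := by
  simp only [tWH1, tW0, tW1, tW2, tW3, ev2, ev]
  push_cast
  ring

theorem wl2_eq (t s : ℝ) :
    ev2 tWL2 t s = 8 * (ev2 tW0 t s * (3)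
      + ev2 tW1 t s * (2 * (s ^ 2 / 4))
      + ev2 tW2 t s * ((s ^ 2 / 4) ^ 2)) := by
  simp only [tWL2, tW0, tW1, tW2, tW3, ev2, ev]
  push_cast
  ring

theorem wh2_eq (t s : ℝ) :
    ev2 tWH2 t s = 8 * (ev2 tW0 t s * (3)
      + ev2 tW1 t s * ((s - 1) + 2 * (s ^ 2 / 4))
      + ev2 tW2 t s * (2 * (s - 1) * (s ^ 2 / 4) + (s ^ 2 / 4) ^ 2)
      + ev2 tW3 t s * (3 * (s - 1) * (s ^ 2 / 4) ^ 2)) := by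
  simp only [tWH2, tW0, tW1, tW2, tW3, ev2, ev]
  push_cast
  ring

theorem wl3_eq (t s : ℝ) :
    ev2 tWL3 t s = 8 * (ev2 tW0 t s * (1)
      + ev2 tW1 t s * ((s ^ 2 / 4))
      + ev2 tW2 t s * ((s ^ 2 / 4) ^ 2)
      + ev2 tW3 t s * ((s ^ 2 / 4) ^ 3)) := by
  simp only [tWL3, tW0, tW1, tW2, tW3, ev2, ev]
  push_cast
  ring

theorem wh3_eq (t s : ℝ) :
    ev2 tWH3 t s = 8 * (ev2 tW0 t s * (1)
      + ev2 tW1 t s * ((s ^ 2 / 4))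
      + ev2 tW2 t s * ((s ^ 2 / 4) ^ 2)
      + ev2 tW3 t s * ((s ^ 2 / 4) ^ 3)) := by
  simp only [tWH3, tW0, tW1, tW2, tW3, ev2, ev]
  push_cast
  ring

theorem gl1_eq (t s : ℝ) :
    ev2 tGL1 t s = 4 * (ev2 tG0 t s * (5)
      + ev2 tG1 t s * ((s ^ 2 / 4))) := by
  simp only [tGL1, tG0, tG1, tG2, tG3, tG4, tG5, ev2, ev]
  push_cast
  ring

theorem ca1_eq (t s : ℝ) :
    ev2 tGL1 t (s * t) = t ^ 3 * ev2 tCA1 t s := by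
  simp only [tGL1, tCA1, ev2, ev]
  push_cast
  ring

theorem cb1_eq (t s : ℝ) :
    ev2 tGL1 (t * s) s = s ^ 3 * ev2 tCB1 t s := by
  simp only [tGL1, tCB1, ev2, ev]
  push_cast
  ring

theorem gl2_eq (t s : ℝ) :
    ev2 tGL2 t s = 8 * (ev2 tG0 t s * (10)
      + ev2 tG1 t s * (4 * (s ^ 2 / 4))
      + ev2 tG2 t s * ((s ^ 2 / 4) ^ 2)) := by
  simp only [tGL2, tG0, tG1, tG2, tG3, tG4, tG5, ev2, ev]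
  push_cast
  ring

theorem ca2_eq (t s : ℝ) :
    ev2 tGL2 t (s * t) = t ^ 3 * ev2 tCA2 t s := by
  simp only [tGL2, tCA2, ev2, ev]
  push_cast
  ring

theorem cb2_eq (t s : ℝ) :
    ev2 tGL2 (t * s) s = s ^ 3 * ev2 tCB2 t s := by
  simp only [tGL2, tCB2, ev2, ev]
  push_cast
  ring

theorem gl3_eq (t s : ℝ) :
    ev2 tGL3 t s = 8 * (ev2 tG0 t s * (10)
      + ev2 tG1 t s * (6 * (s ^ 2 / 4))
      + ev2 tG2 t s * (3 * (s ^ 2 / 4) ^ 2)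
      + ev2 tG3 t s * ((s ^ 2 / 4) ^ 3)) := by
  simp only [tGL3, tG0, tG1, tG2, tG3, tG4, tG5, ev2, ev]
  push_cast
  ring

theorem ca3_eq (t s : ℝ) :
    ev2 tGL3 t (s * t) = t ^ 3 * ev2 tCA3 t s := by
  simp only [tGL3, tCA3, ev2, ev]
  push_cast
  ring

theorem cb3_eq (t s : ℝ) :
    ev2 tGL3 (t * s) s = s ^ 3 * ev2 tCB3 t s := by
  simp only [tGL3, tCB3, ev2, ev]
  push_cast
  ring

theorem gl4_eq (t s : ℝ) :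
    ev2 tGL4 t s = 8 * (ev2 tG0 t s * (5)
      + ev2 tG1 t s * (4 * (s ^ 2 / 4))
      + ev2 tG2 t s * (3 * (s ^ 2 / 4) ^ 2)
      + ev2 tG3 t s * (2 * (s ^ 2 / 4) ^ 3)
      + ev2 tG4 t s * ((s ^ 2 / 4) ^ 4)) := by
  simp only [tGL4, tG0, tG1, tG2, tG3, tG4, tG5, ev2, ev]
  push_cast
  ring

theorem ca4_eq (t s : ℝ) :
    ev2 tGL4 t (s * t) = t ^ 3 * ev2 tCA4 t s := by
  simp only [tGL4, tCA4, ev2, ev]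
  push_cast
  ring

theorem cb4_eq (t s : ℝ) :
    ev2 tGL4 (t * s) s = s ^ 3 * ev2 tCB4 t s := by
  simp only [tGL4, tCB4, ev2, ev]
  push_cast
  ring

theorem gh0_eq (t s : ℝ) :
    ev2 tGH0 t s = 1 * (ev2 tG0 t s * (1)
      + ev2 tG1 t s * ((s - 1))
      + ev2 tG2 t s * ((s - 1) ^ 2)
      + ev2 tG3 t s * ((s - 1) ^ 3)
      + ev2 tG4 t s * ((s - 1) ^ 4)
      + ev2 tG5 t s * ((s - 1) ^ 5)) := by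
  simp only [tGH0, tG0, tG1, tG2, tG3, tG4, tG5, ev2, ev]
  push_cast
  ring

theorem d0_eq (t s : ℝ) :
    (2 - s) ^ 2 * ev2 tD0 t s
      = 8 * ((ev2 tG0 t s * (1)
      + ev2 tG1 t s * ((s - 1))
      + ev2 tG2 t s * ((s - 1) ^ 2)
      + ev2 tG3 t s * ((s - 1) ^ 3)
      + ev2 tG4 t s * ((s - 1) ^ 4)
      + ev2 tG5 t s * ((s - 1) ^ 5))
        - 1 * (ev2 tG0 t s * (1)
      + ev2 tG1 t s * ((s ^ 2 / 4))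
      + ev2 tG2 t s * ((s ^ 2 / 4) ^ 2)
      + ev2 tG3 t s * ((s ^ 2 / 4) ^ 3)
      + ev2 tG4 t s * ((s ^ 2 / 4) ^ 4)
      + ev2 tG5 t s * ((s ^ 2 / 4) ^ 5))) := by
  simp only [tD0, tG0, tG1, tG2, tG3, tG4, tG5, ev2, ev]
  push_cast
  ring

theorem gh1_eq (t s : ℝ) :
    ev2 tGH1 t s = 4 * (ev2 tG0 t s * (5)
      + ev2 tG1 t s * (4 * (s - 1) + (s ^ 2 / 4))
      + ev2 tG2 t s * (3 * (s - 1) ^ 2 + 2 * (s - 1) * (s ^ 2 / 4))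
      + ev2 tG3 t s * (2 * (s - 1) ^ 3 + 3 * (s - 1) ^ 2 * (s ^ 2 / 4))
      + ev2 tG4 t s * ((s - 1) ^ 4 + 4 * (s - 1) ^ 3 * (s ^ 2 / 4))
      + ev2 tG5 t s * (5 * (s - 1) ^ 4 * (s ^ 2 / 4))) := by
  simp only [tGH1, tG0, tG1, tG2, tG3, tG4, tG5, ev2, ev]
  push_cast
  ring

theorem d1_eq (t s : ℝ) :
    (2 - s) ^ 2 * ev2 tD1 t s
      = 8 * ((ev2 tG0 t s * (5)
      + ev2 tG1 t s * (4 * (s - 1) + (s ^ 2 / 4))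
      + ev2 tG2 t s * (3 * (s - 1) ^ 2 + 2 * (s - 1) * (s ^ 2 / 4))
      + ev2 tG3 t s * (2 * (s - 1) ^ 3 + 3 * (s - 1) ^ 2 * (s ^ 2 / 4))
      + ev2 tG4 t s * ((s - 1) ^ 4 + 4 * (s - 1) ^ 3 * (s ^ 2 / 4))
      + ev2 tG5 t s * (5 * (s - 1) ^ 4 * (s ^ 2 / 4)))
        - 5 * (ev2 tG0 t s * (1)
      + ev2 tG1 t s * ((s ^ 2 / 4))
      + ev2 tG2 t s * ((s ^ 2 / 4) ^ 2)
      + ev2 tG3 t s * ((s ^ 2 / 4) ^ 3)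
      + ev2 tG4 t s * ((s ^ 2 / 4) ^ 4)
      + ev2 tG5 t s * ((s ^ 2 / 4) ^ 5))) := by
  simp only [tD1, tG0, tG1, tG2, tG3, tG4, tG5, ev2, ev]
  push_cast
  ring

theorem gh2_eq (t s : ℝ) :
    ev2 tGH2 t s = 8 * (ev2 tG0 t s * (10)
      + ev2 tG1 t s * (6 * (s - 1) + 4 * (s ^ 2 / 4))
      + ev2 tG2 t s * (3 * (s - 1) ^ 2 + 6 * (s - 1) * (s ^ 2 / 4) + (s ^ 2 / 4) ^ 2)
      + ev2 tG3 t s * ((s - 1) ^ 3 + 6 * (s - 1) ^ 2 * (s ^ 2 / 4) + 3 * (s - 1) * (s ^ 2 / 4) ^ 2)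
      + ev2 tG4 t s * (4 * (s - 1) ^ 3 * (s ^ 2 / 4) + 6 * (s - 1) ^ 2 * (s ^ 2 / 4) ^ 2)
      + ev2 tG5 t s * (10 * (s - 1) ^ 3 * (s ^ 2 / 4) ^ 2)) := by
  simp only [tGH2, tG0, tG1, tG2, tG3, tG4, tG5, ev2, ev]
  push_cast
  ring

theorem d2_eq (t s : ℝ) :
    (2 - s) ^ 2 * ev2 tD2 t s
      = 8 * ((ev2 tG0 t s * (10)
      + ev2 tG1 t s * (6 * (s - 1) + 4 * (s ^ 2 / 4))
      + ev2 tG2 t s * (3 * (s - 1) ^ 2 + 6 * (s - 1) * (s ^ 2 / 4) + (s ^ 2 / 4) ^ 2)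
      + ev2 tG3 t s * ((s - 1) ^ 3 + 6 * (s - 1) ^ 2 * (s ^ 2 / 4) + 3 * (s - 1) * (s ^ 2 / 4) ^ 2)
      + ev2 tG4 t s * (4 * (s - 1) ^ 3 * (s ^ 2 / 4) + 6 * (s - 1) ^ 2 * (s ^ 2 / 4) ^ 2)
      + ev2 tG5 t s * (10 * (s - 1) ^ 3 * (s ^ 2 / 4) ^ 2))
        - 10 * (ev2 tG0 t s * (1)
      + ev2 tG1 t s * ((s ^ 2 / 4))
      + ev2 tG2 t s * ((s ^ 2 / 4) ^ 2)
      + ev2 tG3 t s * ((s ^ 2 / 4) ^ 3)
      + ev2 tG4 t s * ((s ^ 2 / 4) ^ 4)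
      + ev2 tG5 t s * ((s ^ 2 / 4) ^ 5))) := by
  simp only [tD2, tG0, tG1, tG2, tG3, tG4, tG5, ev2, ev]
  push_cast
  ring

theorem gh3_eq (t s : ℝ) :
    ev2 tGH3 t s = 8 * (ev2 tG0 t s * (10)
      + ev2 tG1 t s * (4 * (s - 1) + 6 * (s ^ 2 / 4))
      + ev2 tG2 t s * ((s - 1) ^ 2 + 6 * (s - 1) * (s ^ 2 / 4) + 3 * (s ^ 2 / 4) ^ 2)
      + ev2 tG3 t s * (3 * (s - 1) ^ 2 * (s ^ 2 / 4) + 6 * (s - 1) * (s ^ 2 / 4) ^ 2 + (s ^ 2 / 4) ^ 3)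
      + ev2 tG4 t s * (6 * (s - 1) ^ 2 * (s ^ 2 / 4) ^ 2 + 4 * (s - 1) * (s ^ 2 / 4) ^ 3)
      + ev2 tG5 t s * (10 * (s - 1) ^ 2 * (s ^ 2 / 4) ^ 3)) := by
  simp only [tGH3, tG0, tG1, tG2, tG3, tG4, tG5, ev2, ev]
  push_cast
  ring

theorem d3_eq (t s : ℝ) :
    (2 - s) ^ 2 * ev2 tD3 t s
      = 8 * ((ev2 tG0 t s * (10)
      + ev2 tG1 t s * (4 * (s - 1) + 6 * (s ^ 2 / 4))
      + ev2 tG2 t s * ((s - 1) ^ 2 + 6 * (s - 1) * (s ^ 2 / 4) + 3 * (s ^ 2 / 4) ^ 2)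
      + ev2 tG3 t s * (3 * (s - 1) ^ 2 * (s ^ 2 / 4) + 6 * (s - 1) * (s ^ 2 / 4) ^ 2 + (s ^ 2 / 4) ^ 3)
      + ev2 tG4 t s * (6 * (s - 1) ^ 2 * (s ^ 2 / 4) ^ 2 + 4 * (s - 1) * (s ^ 2 / 4) ^ 3)
      + ev2 tG5 t s * (10 * (s - 1) ^ 2 * (s ^ 2 / 4) ^ 3))
        - 10 * (ev2 tG0 t s * (1)
      + ev2 tG1 t s * ((s ^ 2 / 4))
      + ev2 tG2 t s * ((s ^ 2 / 4) ^ 2)
      + ev2 tG3 t s * ((s ^ 2 / 4) ^ 3)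
      + ev2 tG4 t s * ((s ^ 2 / 4) ^ 4)
      + ev2 tG5 t s * ((s ^ 2 / 4) ^ 5))) := by
  simp only [tD3, tG0, tG1, tG2, tG3, tG4, tG5, ev2, ev]
  push_cast
  ring

theorem gh4_eq (t s : ℝ) :
    ev2 tGH4 t s = 8 * (ev2 tG0 t s * (5)
      + ev2 tG1 t s * ((s - 1) + 4 * (s ^ 2 / 4))
      + ev2 tG2 t s * (2 * (s - 1) * (s ^ 2 / 4) + 3 * (s ^ 2 / 4) ^ 2)
      + ev2 tG3 t s * (3 * (s - 1) * (s ^ 2 / 4) ^ 2 + 2 * (s ^ 2 / 4) ^ 3)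
      + ev2 tG4 t s * (4 * (s - 1) * (s ^ 2 / 4) ^ 3 + (s ^ 2 / 4) ^ 4)
      + ev2 tG5 t s * (5 * (s - 1) * (s ^ 2 / 4) ^ 4)) := by
  simp only [tGH4, tG0, tG1, tG2, tG3, tG4, tG5, ev2, ev]
  push_cast
  ring

theorem d4_eq (t s : ℝ) :
    (2 - s) ^ 2 * ev2 tD4 t s
      = 8 * ((ev2 tG0 t s * (5)
      + ev2 tG1 t s * ((s - 1) + 4 * (s ^ 2 / 4))
      + ev2 tG2 t s * (2 * (s - 1) * (s ^ 2 / 4) + 3 * (s ^ 2 / 4) ^ 2)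
      + ev2 tG3 t s * (3 * (s - 1) * (s ^ 2 / 4) ^ 2 + 2 * (s ^ 2 / 4) ^ 3)
      + ev2 tG4 t s * (4 * (s - 1) * (s ^ 2 / 4) ^ 3 + (s ^ 2 / 4) ^ 4)
      + ev2 tG5 t s * (5 * (s - 1) * (s ^ 2 / 4) ^ 4))
        - 5 * (ev2 tG0 t s * (1)
      + ev2 tG1 t s * ((s ^ 2 / 4))
      + ev2 tG2 t s * ((s ^ 2 / 4) ^ 2)
      + ev2 tG3 t s * ((s ^ 2 / 4) ^ 3)
      + ev2 tG4 t s * ((s ^ 2 / 4) ^ 4)
      + ev2 tG5 t s * ((s ^ 2 / 4) ^ 5))) := by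
  simp only [tD4, tG0, tG1, tG2, tG3, tG4, tG5, ev2, ev]
  push_cast
  ring

theorem r_eq (t s : ℝ) :
    (t - s) ^ 2 * ev2 tR t s = 8 * (ev2 tG0 t s * (1)
      + ev2 tG1 t s * ((s ^ 2 / 4))
      + ev2 tG2 t s * ((s ^ 2 / 4) ^ 2)
      + ev2 tG3 t s * ((s ^ 2 / 4) ^ 3)
      + ev2 tG4 t s * ((s ^ 2 / 4) ^ 4)
      + ev2 tG5 t s * ((s ^ 2 / 4) ^ 5)) := by
  simp only [tR, tG0, tG1, tG2, tG3, tG4, tG5, ev2, ev]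
  push_cast
  ring

end Vale.Agent.P219.Eleven
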