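import Vale.Agent.P219.Eleven.Defs
import Vale.Agent.P219.Eleven.FactsW
import Vale.Agent.P219.Eleven.FactsG
import Vale.Agent.P219.Eleven.Ident

/-!
# P219: scalar inequalities of the calibration in dimension eleven

In `s = a+b`, `p = ab` the kernel has degree three and the chord form degree five in `p`. Their
Bernstein coefficients between the edge values of `p` are nonnegative polynomials in `(t,s)`; the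
zeros at `(0,0)` and `(2,2)` are resolved by monomial charts and by splitting off the diagonal.
-/

namespace Vale.Agent.P219.Eleven

open PosCheck

theorem cubic_nonneg {g0 g1 g2 g3 p p0 p1 : ℝ} (h0 : p0 ≤ p) (h1 : p ≤ p1)
    (e0 : 0 ≤ g0 * (1 * p0 ^ 0 * p1 ^ 0) + g1 * (1 * p0 ^ 1 * p1 ^ 0) + g2 * (1 * p0 ^ 2 * p1 ^ 0) + g3 * (1 * p0 ^ 3 * p1 ^ 0))
    (e1 : 0 ≤ g0 * (3 * p0 ^ 0 * p1 ^ 0) + g1 * (2 * p0 ^ 1 * p1 ^ 0 + 1 * p0 ^ 0 * p1 ^ 1) + g2 * (1 * p0 ^ 2 * p1 ^ 0 + 2 * p0 ^ 1 * p1 ^ 1) + g3 * (3 * p0 ^ 2 * p1 ^ 1))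
    (e2 : 0 ≤ g0 * (3 * p0 ^ 0 * p1 ^ 0) + g1 * (1 * p0 ^ 1 * p1 ^ 0 + 2 * p0 ^ 0 * p1 ^ 1) + g2 * (2 * p0 ^ 1 * p1 ^ 1 + 1 * p0 ^ 0 * p1 ^ 2) + g3 * (3 * p0 ^ 1 * p1 ^ 2))
    (e3 : 0 ≤ g0 * (1 * p0 ^ 0 * p1 ^ 0) + g1 * (1 * p0 ^ 0 * p1 ^ 1) + g2 * (1 * p0 ^ 0 * p1 ^ 2) + g3 * (1 * p0 ^ 0 * p1 ^ 3)) :
    0 ≤ g0 + g1 * p + g2 * p ^ 2 + g3 * p ^ 3 := by
  rcases (h0.trans h1).eq_or_lt with h | h
  · obtain rfl : p = p0 := by linarith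
    linarith
  · obtain ⟨l, hl0, hl1, rfl⟩ : ∃ l, 0 ≤ l ∧ l ≤ 1 ∧ p = (1 - l) * p0 + l * p1 :=
      ⟨(p - p0) / (p1 - p0), div_nonneg (by linarith) (by linarith),
        (div_le_one (by linarith)).2 (by linarith), by field_simp [(sub_pos.2 h).ne']; ring⟩
    have key : ∀ E0 E1 E2 E3 : ℝ, 0 ≤ E0 → 0 ≤ E1 → 0 ≤ E2 → 0 ≤ E3 →
        0 ≤ l ^ 0 * (1 - l) ^ 3 * E0 + l ^ 1 * (1 - l) ^ 2 * E1 + l ^ 2 * (1 - l) ^ 1 * E2 + l ^ 3 * (1 - l) ^ 0 * E3 := by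
      intros
      have : 0 ≤ 1 - l := by linarith
      positivity
    refine (key _ _ _ _ e0 e1 e2 e3).trans (le_of_eq ?_)
    ring

theorem quintic_nonneg {g0 g1 g2 g3 g4 g5 p p0 p1 : ℝ} (h0 : p0 ≤ p) (h1 : p ≤ p1)
    (e0 : 0 ≤ g0 * (1 * p0 ^ 0 * p1 ^ 0) + g1 * (1 * p0 ^ 1 * p1 ^ 0) + g2 * (1 * p0 ^ 2 * p1 ^ 0) + g3 * (1 * p0 ^ 3 * p1 ^ 0) + g4 * (1 * p0 ^ 4 * p1 ^ 0) + g5 * (1 * p0 ^ 5 * p1 ^ 0))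
    (e1 : 0 ≤ g0 * (5 * p0 ^ 0 * p1 ^ 0) + g1 * (4 * p0 ^ 1 * p1 ^ 0 + 1 * p0 ^ 0 * p1 ^ 1) + g2 * (3 * p0 ^ 2 * p1 ^ 0 + 2 * p0 ^ 1 * p1 ^ 1) + g3 * (2 * p0 ^ 3 * p1 ^ 0 + 3 * p0 ^ 2 * p1 ^ 1) + g4 * (1 * p0 ^ 4 * p1 ^ 0 + 4 * p0 ^ 3 * p1 ^ 1) + g5 * (5 * p0 ^ 4 * p1 ^ 1))
    (e2 : 0 ≤ g0 * (10 * p0 ^ 0 * p1 ^ 0) + g1 * (6 * p0 ^ 1 * p1 ^ 0 + 4 * p0 ^ 0 * p1 ^ 1) + g2 * (3 * p0 ^ 2 * p1 ^ 0 + 6 * p0 ^ 1 * p1 ^ 1 + 1 * p0 ^ 0 * p1 ^ 2) + g3 * (1 * p0 ^ 3 * p1 ^ 0 + 6 * p0 ^ 2 * p1 ^ 1 + 3 * p0 ^ 1 * p1 ^ 2) + g4 * (4 * p0 ^ 3 * p1 ^ 1 + 6 * p0 ^ 2 * p1 ^ 2) + g5 * (10 * p0 ^ 3 * p1 ^ 2))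
    (e3 : 0 ≤ g0 * (10 * p0 ^ 0 * p1 ^ 0) + g1 * (4 * p0 ^ 1 * p1 ^ 0 + 6 * p0 ^ 0 * p1 ^ 1) + g2 * (1 * p0 ^ 2 * p1 ^ 0 + 6 * p0 ^ 1 * p1 ^ 1 + 3 * p0 ^ 0 * p1 ^ 2) + g3 * (3 * p0 ^ 2 * p1 ^ 1 + 6 * p0 ^ 1 * p1 ^ 2 + 1 * p0 ^ 0 * p1 ^ 3) + g4 * (6 * p0 ^ 2 * p1 ^ 2 + 4 * p0 ^ 1 * p1 ^ 3) + g5 * (10 * p0 ^ 2 * p1 ^ 3))
    (e4 : 0 ≤ g0 * (5 * p0 ^ 0 * p1 ^ 0) + g1 * (1 * p0 ^ 1 * p1 ^ 0 + 4 * p0 ^ 0 * p1 ^ 1) + g2 * (2 * p0 ^ 1 * p1 ^ 1 + 3 * p0 ^ 0 * p1 ^ 2) + g3 * (3 * p0 ^ 1 * p1 ^ 2 + 2 * p0 ^ 0 * p1 ^ 3) + g4 * (4 * p0 ^ 1 * p1 ^ 3 + 1 * p0 ^ 0 * p1 ^ 4) + g5 * (5 * p0 ^ 1 * p1 ^ 4))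
    (e5 : 0 ≤ g0 * (1 * p0 ^ 0 * p1 ^ 0) + g1 * (1 * p0 ^ 0 * p1 ^ 1) + g2 * (1 * p0 ^ 0 * p1 ^ 2) + g3 * (1 * p0 ^ 0 * p1 ^ 3) + g4 * (1 * p0 ^ 0 * p1 ^ 4) + g5 * (1 * p0 ^ 0 * p1 ^ 5)) :
    0 ≤ g0 + g1 * p + g2 * p ^ 2 + g3 * p ^ 3 + g4 * p ^ 4 + g5 * p ^ 5 := by
  rcases (h0.trans h1).eq_or_lt with h | h
  · obtain rfl : p = p0 := by linarith
    linarith
  · obtain ⟨l, hl0, hl1, rfl⟩ : ∃ l, 0 ≤ l ∧ l ≤ 1 ∧ p = (1 - l) * p0 + l * p1 :=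
      ⟨(p - p0) / (p1 - p0), div_nonneg (by linarith) (by linarith),
        (div_le_one (by linarith)).2 (by linarith), by field_simp [(sub_pos.2 h).ne']; ring⟩
    have key : ∀ E0 E1 E2 E3 E4 E5 : ℝ, 0 ≤ E0 → 0 ≤ E1 → 0 ≤ E2 → 0 ≤ E3 → 0 ≤ E4 → 0 ≤ E5 →
        0 ≤ l ^ 0 * (1 - l) ^ 5 * E0 + l ^ 1 * (1 - l) ^ 4 * E1 + l ^ 2 * (1 - l) ^ 3 * E2 + l ^ 3 * (1 - l) ^ 2 * E3 + l ^ 4 * (1 - l) ^ 1 * E4 + l ^ 5 * (1 - l) ^ 0 * E5 := by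
      intros
      have : 0 ≤ 1 - l := by linarith
      positivity
    refine (key _ _ _ _ _ _ e0 e1 e2 e3 e4 e5).trans (le_of_eq ?_)
    ring

/-- The kernel form. -/
noncomputable def Wf (t s p : ℝ) : ℝ :=
  ev2 tW0 t s + ev2 tW1 t s * p + ev2 tW2 t s * p ^ 2 + ev2 tW3 t s * p ^ 3

/-- The chord form. -/
noncomputable def Gf (t s p : ℝ) : ℝ :=
  ev2 tG0 t s + ev2 tG1 t s * p + ev2 tG2 t s * p ^ 2 + ev2 tG3 t s * p ^ 3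
    + ev2 tG4 t s * p ^ 4 + ev2 tG5 t s * p ^ 5

theorem Wf_eq {t : ℝ} (ht : 0 < t) (a b : ℝ) :
    Qp t a b * (2721600000 * t ^ 7) = Wf t (a + b) (a * b) := by
  simp only [Qp, Kp, g, gt, gu, num, tnum, unum, Wf, tW0, tW1, tW2, tW3, ev2, ev]
  push_cast
  field_simp
  ring

theorem Gf_eq (t a b : ℝ) :
    t ^ 3 * Wf t (a + b) (a * b) + 2721600000 * (a * b) * (phi a + phi b - t)
      = Gf t (a + b) (a * b) := by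
  simp only [phi, Wf, Gf, tW0, tW1, tW2, tW3, tG0, tG1, tG2, tG3, tG4, tG5, ev2, ev]
  push_cast
  ring

theorem num_eq (t u : ℝ) : num t u = ev2 tN t u := by
  simp only [num, tN, ev2, ev]; push_cast; ring

theorem unum_eq (t u : ℝ) : unum t u = -ev2 tNu t u := by
  simp only [unum, tNu, ev2, ev]; push_cast; ring

theorem phi_eq (c : ℝ) : phi c * 2721600000 = c * ev tPhi c := by
  simp only [phi, tPhi, ev]; push_cast; ring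

theorem num_nonneg {t u : ℝ} (ht : 0 ≤ t) (h0 : 0 ≤ u) (h1 : u ≤ 1) : 0 ≤ num t u := by
  rw [num_eq]; exact n_nn ht h0 h1

theorem unum_nonpos {t u : ℝ} (ht : 0 ≤ t) (h0 : 0 ≤ u) (h1 : u ≤ 1) : unum t u ≤ 0 := by
  rw [unum_eq, neg_nonpos]; exact nu_nn ht h0 h1

theorem phi_nonneg {c : ℝ} (h0 : 0 ≤ c) (h1 : c ≤ 1) : 0 ≤ phi c :=
  nonneg_of_mul_nonneg_left (b := 2721600000)
    (by rw [phi_eq]; exact mul_nonneg h0 (phi_nn h0 h1)) (by norm_num)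

theorem Wf_nonneg {t a b : ℝ} (ht : 0 ≤ t) (ha0 : 0 ≤ a) (ha1 : a ≤ 1) (hb0 : 0 ≤ b)
    (hb1 : b ≤ 1) : 0 ≤ Wf t (a + b) (a * b) := by
  have hp1 : a * b ≤ (a + b) ^ 2 / 4 := by nlinarith [sq_nonneg (a - b)]
  have hs0 : 0 ≤ a + b := by linarith
  rcases le_total (a + b) 1 with h | h
  · refine cubic_nonneg (p0 := 0) (p1 := (a + b) ^ 2 / 4) (mul_nonneg ha0 hb0) hp1 ?_ ?_ ?_ ?_
    · linarith [wl0_eq t (a + b), wl0_nn ht hs0 h]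
    · linarith [wl1_eq t (a + b), wl1_nn ht hs0 h]
    · linarith [wl2_eq t (a + b), wl2_nn ht hs0 h]
    · linarith [wl3_eq t (a + b), wl3_nn ht hs0 h]
  · have hs1 : a + b ≤ 2 := by linarith
    refine cubic_nonneg (p0 := a + b - 1) (p1 := (a + b) ^ 2 / 4) (by nlinarith) hp1 ?_ ?_ ?_ ?_
    · linarith [wh0_eq t (a + b), wh0_nn ht h hs1]
    · linarith [wh1_eq t (a + b), wh1_nn ht h hs1]
    · linarith [wh2_eq t (a + b), wh2_nn ht h hs1]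
    · linarith [wh3_eq t (a + b), wh3_nn ht h hs1]

theorem low1 {t s : ℝ} (ht : 0 ≤ t) (h0 : 0 ≤ s) (h1 : s ≤ 1) : 0 ≤ ev2 tGL1 t s := by
  by_cases hz : t ≤ 1 / 2 ∧ s ≤ 1 / 2
  · obtain ⟨z1, z2⟩ := hz
    rcases le_total s t with h | h
    · obtain ⟨r, hr0, hr1, rfl⟩ : ∃ r, 0 ≤ r ∧ r ≤ 1 ∧ s = r * t := by
        rcases ht.eq_or_lt with h' | h'
        · exact ⟨0, le_rfl, zero_le_one, by rw [zero_mul]; linarith⟩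
        · exact ⟨s / t, div_nonneg h0 ht, (div_le_one h').2 h, (div_mul_cancel₀ s h'.ne').symm⟩
      rw [ca1_eq]
      exact mul_nonneg (pow_nonneg ht 3) (ca1_nn ht z1 hr0 hr1)
    · obtain ⟨q, hq0, hq1, rfl⟩ : ∃ q, 0 ≤ q ∧ q ≤ 1 ∧ t = q * s := by
        rcases h0.eq_or_lt with h' | h'
        · exact ⟨0, le_rfl, zero_le_one, by rw [zero_mul]; linarith⟩
        · exact ⟨t / s, div_nonneg ht h0, (div_le_one h').2 h, (div_mul_cancel₀ t h'.ne').symm⟩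
      rw [cb1_eq]
      exact mul_nonneg (pow_nonneg h0 3) (cb1_nn hq0 hq1 h0 z2)
  · exact gl1_nn ht h0 h1 hz

theorem low2 {t s : ℝ} (ht : 0 ≤ t) (h0 : 0 ≤ s) (h1 : s ≤ 1) : 0 ≤ ev2 tGL2 t s := by
  by_cases hz : t ≤ 1 / 2 ∧ s ≤ 1 / 2
  · obtain ⟨z1, z2⟩ := hz
    rcases le_total s t with h | h
    · obtain ⟨r, hr0, hr1, rfl⟩ : ∃ r, 0 ≤ r ∧ r ≤ 1 ∧ s = r * t := by
        rcases ht.eq_or_lt with h' | h'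
        · exact ⟨0, le_rfl, zero_le_one, by rw [zero_mul]; linarith⟩
        · exact ⟨s / t, div_nonneg h0 ht, (div_le_one h').2 h, (div_mul_cancel₀ s h'.ne').symm⟩
      rw [ca2_eq]
      exact mul_nonneg (pow_nonneg ht 3) (ca2_nn ht z1 hr0 hr1)
    · obtain ⟨q, hq0, hq1, rfl⟩ : ∃ q, 0 ≤ q ∧ q ≤ 1 ∧ t = q * s := by
        rcases h0.eq_or_lt with h' | h'
        · exact ⟨0, le_rfl, zero_le_one, by rw [zero_mul]; linarith⟩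
        · exact ⟨t / s, div_nonneg ht h0, (div_le_one h').2 h, (div_mul_cancel₀ t h'.ne').symm⟩
      rw [cb2_eq]
      exact mul_nonneg (pow_nonneg h0 3) (cb2_nn hq0 hq1 h0 z2)
  · exact gl2_nn ht h0 h1 hz

theorem low3 {t s : ℝ} (ht : 0 ≤ t) (h0 : 0 ≤ s) (h1 : s ≤ 1) : 0 ≤ ev2 tGL3 t s := by
  by_cases hz : t ≤ 1 / 2 ∧ s ≤ 1 / 2
  · obtain ⟨z1, z2⟩ := hz
    rcases le_total s t with h | h
    · obtain ⟨r, hr0, hr1, rfl⟩ : ∃ r, 0 ≤ r ∧ r ≤ 1 ∧ s = r * t := by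
        rcases ht.eq_or_lt with h' | h'
        · exact ⟨0, le_rfl, zero_le_one, by rw [zero_mul]; linarith⟩
        · exact ⟨s / t, div_nonneg h0 ht, (div_le_one h').2 h, (div_mul_cancel₀ s h'.ne').symm⟩
      rw [ca3_eq]
      exact mul_nonneg (pow_nonneg ht 3) (ca3_nn ht z1 hr0 hr1)
    · obtain ⟨q, hq0, hq1, rfl⟩ : ∃ q, 0 ≤ q ∧ q ≤ 1 ∧ t = q * s := by
        rcases h0.eq_or_lt with h' | h'
        · exact ⟨0, le_rfl, zero_le_one, by rw [zero_mul]; linarith⟩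
        · exact ⟨t / s, div_nonneg ht h0, (div_le_one h').2 h, (div_mul_cancel₀ t h'.ne').symm⟩
      rw [cb3_eq]
      exact mul_nonneg (pow_nonneg h0 3) (cb3_nn hq0 hq1 h0 z2)
  · exact gl3_nn ht h0 h1 hz

theorem low4 {t s : ℝ} (ht : 0 ≤ t) (h0 : 0 ≤ s) (h1 : s ≤ 1) : 0 ≤ ev2 tGL4 t s := by
  by_cases hz : t ≤ 1 / 2 ∧ s ≤ 1 / 2
  · obtain ⟨z1, z2⟩ := hz
    rcases le_total s t with h | h
    · obtain ⟨r, hr0, hr1, rfl⟩ : ∃ r, 0 ≤ r ∧ r ≤ 1 ∧ s = r * t := by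
        rcases ht.eq_or_lt with h' | h'
        · exact ⟨0, le_rfl, zero_le_one, by rw [zero_mul]; linarith⟩
        · exact ⟨s / t, div_nonneg h0 ht, (div_le_one h').2 h, (div_mul_cancel₀ s h'.ne').symm⟩
      rw [ca4_eq]
      exact mul_nonneg (pow_nonneg ht 3) (ca4_nn ht z1 hr0 hr1)
    · obtain ⟨q, hq0, hq1, rfl⟩ : ∃ q, 0 ≤ q ∧ q ≤ 1 ∧ t = q * s := by
        rcases h0.eq_or_lt with h' | h'
        · exact ⟨0, le_rfl, zero_le_one, by rw [zero_mul]; linarith⟩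
        · exact ⟨t / s, div_nonneg ht h0, (div_le_one h').2 h, (div_mul_cancel₀ t h'.ne').symm⟩
      rw [cb4_eq]
      exact mul_nonneg (pow_nonneg h0 3) (cb4_nn hq0 hq1 h0 z2)
  · exact gl4_nn ht h0 h1 hz

theorem diag_nonneg {t s : ℝ} (ht : 0 ≤ t) (h0 : 0 ≤ s) (h1 : s ≤ 2) :
    0 ≤ (t - s) ^ 2 * ev2 tR t s :=
  mul_nonneg (sq_nonneg _) (r_nn ht h0 h1)

theorem high0 {t s : ℝ} (ht : 0 ≤ t) (h0 : 1 ≤ s) (h1 : s ≤ 2) : 0 ≤ ev2 tGH0 t s := by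
  by_cases hz : (63 / 32 ≤ t ∧ t ≤ 65 / 32) ∧ 63 / 32 ≤ s
  · have := mul_nonneg (sq_nonneg (2 - s)) (d0_nn hz.1.1 hz.1.2 hz.2 h1)
    linarith [gh0_eq t s, d0_eq t s, r_eq t s, diag_nonneg ht (by linarith : (0 : ℝ) ≤ s) h1]
  · exact gh0_nn ht h0 h1 hz

theorem high1 {t s : ℝ} (ht : 0 ≤ t) (h0 : 1 ≤ s) (h1 : s ≤ 2) : 0 ≤ ev2 tGH1 t s := by
  by_cases hz : (63 / 32 ≤ t ∧ t ≤ 65 / 32) ∧ 63 / 32 ≤ s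
  · have := mul_nonneg (sq_nonneg (2 - s)) (d1_nn hz.1.1 hz.1.2 hz.2 h1)
    linarith [gh1_eq t s, d1_eq t s, r_eq t s, diag_nonneg ht (by linarith : (0 : ℝ) ≤ s) h1]
  · exact gh1_nn ht h0 h1 hz

theorem high2 {t s : ℝ} (ht : 0 ≤ t) (h0 : 1 ≤ s) (h1 : s ≤ 2) : 0 ≤ ev2 tGH2 t s := by
  by_cases hz : (63 / 32 ≤ t ∧ t ≤ 65 / 32) ∧ 63 / 32 ≤ s
  · have := mul_nonneg (sq_nonneg (2 - s)) (d2_nn hz.1.1 hz.1.2 hz.2 h1)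
    linarith [gh2_eq t s, d2_eq t s, r_eq t s, diag_nonneg ht (by linarith : (0 : ℝ) ≤ s) h1]
  · exact gh2_nn ht h0 h1 hz

theorem high3 {t s : ℝ} (ht : 0 ≤ t) (h0 : 1 ≤ s) (h1 : s ≤ 2) : 0 ≤ ev2 tGH3 t s := by
  by_cases hz : (63 / 32 ≤ t ∧ t ≤ 65 / 32) ∧ 63 / 32 ≤ s
  · have := mul_nonneg (sq_nonneg (2 - s)) (d3_nn hz.1.1 hz.1.2 hz.2 h1)
    linarith [gh3_eq t s, d3_eq t s, r_eq t s, diag_nonneg ht (by linarith : (0 : ℝ) ≤ s) h1]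
  · exact gh3_nn ht h0 h1 hz

theorem high4 {t s : ℝ} (ht : 0 ≤ t) (h0 : 1 ≤ s) (h1 : s ≤ 2) : 0 ≤ ev2 tGH4 t s := by
  by_cases hz : (63 / 32 ≤ t ∧ t ≤ 65 / 32) ∧ 63 / 32 ≤ s
  · have := mul_nonneg (sq_nonneg (2 - s)) (d4_nn hz.1.1 hz.1.2 hz.2 h1)
    linarith [gh4_eq t s, d4_eq t s, r_eq t s, diag_nonneg ht (by linarith : (0 : ℝ) ≤ s) h1]
  · exact gh4_nn ht h0 h1 hz

/-- The certificate along chords. -/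
theorem Gf_nonneg {t a b : ℝ} (ht : 0 ≤ t) (ha0 : 0 ≤ a) (ha1 : a ≤ 1) (hb0 : 0 ≤ b)
    (hb1 : b ≤ 1) : 0 ≤ Gf t (a + b) (a * b) := by
  have hp1 : a * b ≤ (a + b) ^ 2 / 4 := by nlinarith [sq_nonneg (a - b)]
  have hs0 : 0 ≤ a + b := by linarith
  rcases le_total (a + b) 1 with h | h
  · refine quintic_nonneg (p0 := 0) (p1 := (a + b) ^ 2 / 4) (mul_nonneg ha0 hb0) hp1
      ?_ ?_ ?_ ?_ ?_ ?_
    · linarith [g0_nn ht hs0 h]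
    · linarith [gl1_eq t (a + b), low1 ht hs0 h]
    · linarith [gl2_eq t (a + b), low2 ht hs0 h]
    · linarith [gl3_eq t (a + b), low3 ht hs0 h]
    · linarith [gl4_eq t (a + b), low4 ht hs0 h]
    · linarith [r_eq t (a + b), diag_nonneg ht hs0 (h.trans one_le_two)]
  · have hs1 : a + b ≤ 2 := by linarith
    refine quintic_nonneg (p0 := a + b - 1) (p1 := (a + b) ^ 2 / 4) (by nlinarith) hp1
      ?_ ?_ ?_ ?_ ?_ ?_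
    · linarith [gh0_eq t (a + b), high0 ht h hs1]
    · linarith [gh1_eq t (a + b), high1 ht h hs1]
    · linarith [gh2_eq t (a + b), high2 ht h hs1]
    · linarith [gh3_eq t (a + b), high3 ht h hs1]
    · linarith [gh4_eq t (a + b), high4 ht h hs1]
    · linarith [r_eq t (a + b), diag_nonneg ht hs0 hs1]

end Vale.Agent.P219.Eleven
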