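import Mathlib

/-!
# P219: the data of the calibration in dimension eleven

`F(t,u) = num t |u| / (2721600000 t⁶)` with `α = 487 / 25000`; `num` has degree four in `u`.
-/

namespace Vale.Agent.P219.Eleven

noncomputable section

/-- The numerator of the weight. -/
def num (t u : ℝ) : ℝ :=
  75600000 - 73338624 * u ^ 4 - 621552960 * t * u + 973924560 * t * u ^ 2 + 293225184 * t ^ 2
    + 403395552 * t ^ 2 * u - 1973432160 * t ^ 2 * u ^ 2 + 442833200 * t ^ 2 * u ^ 4 - 330402240 * t ^ 3 + 619272864 * t ^ 3 * u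
    + 1005990111 * t ^ 3 * u ^ 2 - 675040076 * t ^ 3 * u ^ 3 + 104237280 * t ^ 4 - 485914464 * t ^ 4 * u + 212393664 * t ^ 4 * u ^ 2
    + 32931360 * t ^ 5

/-- `t ∂ₜ num`. -/
def tnum (t u : ℝ) : ℝ :=
  -621552960 * t * u + 973924560 * t * u ^ 2 + 586450368 * t ^ 2 + 806791104 * t ^ 2 * u - 3946864320 * t ^ 2 * u ^ 2
    + 885666400 * t ^ 2 * u ^ 4 - 991206720 * t ^ 3 + 1857818592 * t ^ 3 * u + 3017970333 * t ^ 3 * u ^ 2 - 2025120228 * t ^ 3 * u ^ 3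
    + 416949120 * t ^ 4 - 1943657856 * t ^ 4 * u + 849574656 * t ^ 4 * u ^ 2 + 164656800 * t ^ 5

/-- `∂ᵤ num`. -/
def unum (t u : ℝ) : ℝ :=
  -293354496 * u ^ 3 - 621552960 * t + 1947849120 * t * u + 403395552 * t ^ 2 - 3946864320 * t ^ 2 * u
    + 1771332800 * t ^ 2 * u ^ 3 + 619272864 * t ^ 3 + 2011980222 * t ^ 3 * u - 2025120228 * t ^ 3 * u ^ 2 - 485914464 * t ^ 4
    + 424787328 * t ^ 4 * u

/-- `F / t`. -/
def g (t u : ℝ) : ℝ := num t u / (2721600000 * t ^ 7)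

def gt (t u : ℝ) : ℝ := (tnum t u - 7 * num t u) / (2721600000 * t ^ 8)

def gu (t u : ℝ) : ℝ := unum t u / (2721600000 * t ^ 7)

/-- The kernel at nonnegative cosines, with the square root replaced by its upper bound. -/
def Kp (t a u : ℝ) : ℝ :=
  (g t u + t * gt t u) * (1 - a ^ 2) + (9 + a ^ 2) * g t u - 10 * (t * g t u) * a
    + gu t u * a * (1 - (a ^ 2 + u ^ 2) / 2)

def Qp (t a b : ℝ) : ℝ := 487 / 25000 + (Kp t a b + Kp t b a) / 2

/-- The multiplier. -/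
def phi (c : ℝ) : ℝ :=
  2 / 3 * c + 11027 / 5625 * c ^ 3 - 50607 / 6250 * c ^ 4 + 1037021 / 84375 * c ^ 5 + 37429 / 6250 * c ^ 6 - 24062837 / 787500 * c ^ 7 + 628363 / 25000 * c ^ 8 - 136971703 / 21262500 * c ^ 9

end

end Vale.Agent.P219.Eleven
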